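import Vale.Agent.N178.Cube
import Vale.Agent.P178.H873.QCo

/-!
# A cocycle of every degree on the nerve of Quillen's category

`R` is a commutative ring, `k` a commutative `R`-algebra and `D 0, D 1, …` are derivations
`R → k`. The cochain `qc d n` on the `(n + 1)`-simplices of the nerve of `Q P(R)` is a cocycle.
-/

open CategoryTheory
open scoped TensorProduct
open Vale.Agent.P178.H847 (QHom QP)
open Vale.Agent.P178.H873 (SES QKer toQ KM up up_comp exists_sec)

namespace Vale.Agent.N178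

section Conn

variable {R k : Type*} [CommRing R] [CommRing k] [Algebra R k]

/-- a connection on `M` relative to a derivation `D : R → k` -/
structure Conn (D : Derivation ℤ R k) (M : Type*) [AddCommGroup M] [Module R M] where
  toFun : M → k ⊗[R] M
  add' : ∀ x y, toFun (x + y) = toFun x + toFun y
  leib' : ∀ (r : R) (x : M), toFun (r • x) = D r ⊗ₜ[R] x + r • toFun x

namespace Conn

variable {D : Derivation ℤ R k} {M : Type*} [AddCommGroup M] [Module R M]

theorem ext_fun {v w : Conn D M} (h : ∀ x, v.toFun x = w.toFun x) : v = w := by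
  cases v
  cases w
  congr
  exact funext h

theorem map_zero' (v : Conn D M) : v.toFun 0 = 0 := by
  have := v.add' 0 0
  rw [add_zero] at this
  exact left_eq_add.1 this

/-- the difference of two connections, as a linear map on the fibre -/
noncomputable def diff (v w : Conn D M) : Module.End k (k ⊗[R] M) :=
  LinearMap.liftBaseChange k
    { toFun := fun x => w.toFun x - v.toFun x
      map_add' := fun x y => by
        rw [w.add', v.add']
        abel
      map_smul' := fun r x => by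
        rw [w.leib', v.leib', RingHom.id_apply, smul_sub]
        abel }

theorem diff_tmul (v w : Conn D M) (a : k) (x : M) :
    diff v w (a ⊗ₜ x) = a • (w.toFun x - v.toFun x) := rfl

theorem diff_add (u v w : Conn D M) : diff u v + diff v w = diff u w := by
  refine LinearMap.ext fun z => ?_
  induction z using TensorProduct.induction_on with
  | zero => simp
  | tmul a x =>
    rw [LinearMap.add_apply, diff_tmul, diff_tmul, diff_tmul, ← smul_add]
    congr 1
    abel
  | add x y hx hy => rw [map_add, hx, hy, map_add]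

theorem diff_self (v : Conn D M) : diff v v = 0 := by
  refine LinearMap.ext fun z => ?_
  induction z using TensorProduct.induction_on with
  | zero => simp
  | tmul a x => rw [diff_tmul, sub_self, smul_zero, LinearMap.zero_apply]
  | add x y hx hy => rw [map_add, hx, hy, map_add]

/-- the connection `v` on `M` and the connection `w` on `N` are compatible with `f : M → N` -/
def Rel {N : Type*} [AddCommGroup N] [Module R N] (f : M →ₗ[R] N) (v : Conn D M)
    (w : Conn D N) : Prop := ∀ x, w.toFun (f x) = f.baseChange k (v.toFun x)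

theorem Rel.diff {N : Type*} [AddCommGroup N] [Module R N] {f : M →ₗ[R] N} {v v' : Conn D M}
    {w w' : Conn D N} (h : Rel f v w) (h' : Rel f v' w') :
    (Conn.diff w w') ∘ₗ f.baseChange k = f.baseChange k ∘ₗ Conn.diff v v' := by
  refine LinearMap.ext fun z => ?_
  induction z using TensorProduct.induction_on with
  | zero => simp
  | tmul a x =>
    rw [LinearMap.comp_apply, LinearMap.comp_apply, LinearMap.baseChange_tmul, diff_tmul,
      diff_tmul, map_smul, map_sub, h x, h' x]
  | add x y hx hy => rw [map_add, hx, hy, map_add]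

/-- connections exist on projective modules -/
theorem nonempty_of_projective (D : Derivation ℤ R k) (M : Type*) [AddCommGroup M] [Module R M]
    [Module.Projective R M] : Nonempty (Conn D M) := by
  obtain ⟨s, hs⟩ := (Module.projective_def' (R := R) (P := M)).1 inferInstance
  have hs' : ∀ x, (s x).sum (fun i r => r • i) = x := fun x => LinearMap.congr_fun hs x
  refine ⟨⟨fun x => (s x).sum fun i r => D r ⊗ₜ[R] i, fun x y => ?_, fun r x => ?_⟩⟩
  · rw [map_add, Finsupp.sum_add_index']
    · intro i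
      rw [map_zero, TensorProduct.zero_tmul]
    · intro i a b
      rw [map_add, TensorProduct.add_tmul]
  · rw [map_smul]
    rw [Finsupp.sum_of_support_subset (s := (s x).support) _
      (Finsupp.support_smul) _ (fun i _ => by rw [map_zero, TensorProduct.zero_tmul])]
    have e : D r ⊗ₜ[R] x = (s x).sum fun i a => D r ⊗ₜ[R] (a • i) := by
      conv_lhs => rw [← hs' x]
      rw [Finsupp.sum, TensorProduct.tmul_sum]
      rfl
    rw [e, Finsupp.sum, Finsupp.sum, Finset.smul_sum, ← Finset.sum_add_distrib]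
    refine Finset.sum_congr rfl fun i _ => ?_
    rw [Finsupp.smul_apply, smul_eq_mul, Derivation.leibniz, TensorProduct.add_tmul,
      TensorProduct.tmul_smul, TensorProduct.smul_tmul', TensorProduct.smul_tmul', add_comm]

end Conn

variable {M : Type*} [AddCommGroup M] [Module R M]

section SES

variable {N Q : Type*} [AddCommGroup N] [Module R N] [AddCommGroup Q] [Module R Q]

theorem baseChange_apply_of_comp {M₁ M₂ M₃ : Type*} [AddCommGroup M₁] [Module R M₁]
    [AddCommGroup M₂] [Module R M₂] [AddCommGroup M₃] [Module R M₃] {f : M₁ →ₗ[R] M₂}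
    {g : M₂ →ₗ[R] M₃} {h : M₁ →ₗ[R] M₃} (e : ∀ x, g (f x) = h x) (z : k ⊗[R] M₁) :
    g.baseChange k (f.baseChange k z) = h.baseChange k z := by
  obtain rfl : g ∘ₗ f = h := LinearMap.ext e
  rw [LinearMap.baseChange_comp]
  rfl

theorem baseChange_apply_of_comp_comm {M₁ M₂ M₂' M₃ : Type*} [AddCommGroup M₁] [Module R M₁]
    [AddCommGroup M₂] [Module R M₂] [AddCommGroup M₂'] [Module R M₂'] [AddCommGroup M₃]
    [Module R M₃] {f : M₁ →ₗ[R] M₂} {g : M₂ →ₗ[R] M₃} {f' : M₁ →ₗ[R] M₂'} {g' : M₂' →ₗ[R] M₃}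
    (e : ∀ x, g (f x) = g' (f' x)) (z : k ⊗[R] M₁) :
    g.baseChange k (f.baseChange k z) = g'.baseChange k (f'.baseChange k z) := by
  rw [baseChange_apply_of_comp (h := g ∘ₗ f) (fun x => rfl),
    baseChange_apply_of_comp (h := g ∘ₗ f) (fun x => (e x).symm)]

/-- the extension of two connections -/
noncomputable def sconn (E : SES R N M Q) {D : Derivation ℤ R k} (v : Conn D N)
    (w : Conn D Q) : Conn D M where
  toFun x := E.ι.baseChange k (v.toFun (E.p x)) + E.s.baseChange k (w.toFun (E.π x))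
  add' x y := by
    rw [map_add, map_add, v.add', w.add', map_add, map_add]
    abel
  leib' r x := by
    rw [map_smul, map_smul, v.leib', w.leib', map_add, map_add, LinearMap.baseChange_tmul,
      LinearMap.baseChange_tmul, add_add_add_comm, ← TensorProduct.tmul_add, E.sum, smul_add,
      LinearMap.map_smul_of_tower, LinearMap.map_smul_of_tower]

theorem rel_ι (E : SES R N M Q) {D : Derivation ℤ R k} (v : Conn D N) (w : Conn D Q) :
    Conn.Rel E.ι v (sconn E v w) := fun n => by
  change E.ι.baseChange k (v.toFun (E.p (E.ι n))) + E.s.baseChange k (w.toFun (E.π (E.ι n))) = _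
  rw [E.pι, E.πι, w.map_zero', map_zero, add_zero]

theorem rel_π (E : SES R N M Q) {D : Derivation ℤ R k} (v : Conn D N) (w : Conn D Q) :
    Conn.Rel E.π (sconn E v w) w := fun m => by
  change _ = E.π.baseChange k
    (E.ι.baseChange k (v.toFun (E.p m)) + E.s.baseChange k (w.toFun (E.π m)))
  rw [map_add, baseChange_apply_of_comp (h := 0) E.πι, LinearMap.baseChange_zero,
    LinearMap.zero_apply, zero_add, baseChange_apply_of_comp (h := LinearMap.id) E.πs,
    LinearMap.baseChange_id, LinearMap.id_apply]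

/-- compatibility of an extension with a sub-extension -/
theorem rel_sub {L G B H F : Type*} [AddCommGroup L] [Module R L] [AddCommGroup G]
    [Module R G] [AddCommGroup B] [Module R B] [AddCommGroup H] [Module R H] [AddCommGroup F]
    [Module R F] (E : SES R G H F) (E1 : SES R L B G) (E2 : SES R L M H) (E3 : SES R B M F)
    (a : ∀ n, E2.p (E3.ι n) = E1.p n) (b : ∀ n, E2.π (E3.ι n) = E.ι (E1.π n))
    (c : ∀ z, E3.ι (E1.ι z) = E2.ι z) (c' : ∀ y, E3.ι (E1.s y) = E2.s (E.ι y))
    {D : Derivation ℤ R k} (t : Conn D L) {u : Conn D G} {v : Conn D H}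
    (h : Conn.Rel E.ι u v) : Conn.Rel E3.ι (sconn E1 t u) (sconn E2 t v) := fun n => by
  change E2.ι.baseChange k (t.toFun (E2.p (E3.ι n))) +
    E2.s.baseChange k (v.toFun (E2.π (E3.ι n))) = E3.ι.baseChange k
      (E1.ι.baseChange k (t.toFun (E1.p n)) + E1.s.baseChange k (u.toFun (E1.π n)))
  rw [a, b, h, map_add, baseChange_apply_of_comp c,
    baseChange_apply_of_comp_comm (f := E1.s) (g := E3.ι) (f' := E.ι) (g' := E2.s) c']

/-- compatibility of an extension with a quotient -/
theorem rel_quo {L G B H F : Type*} [AddCommGroup L] [Module R L] [AddCommGroup G]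
    [Module R G] [AddCommGroup B] [Module R B] [AddCommGroup H] [Module R H] [AddCommGroup F]
    [Module R F] (E : SES R G H F) (E2 : SES R L M H) (E3 : SES R B M F)
    (a : ∀ z, E3.π (E2.ι z) = 0) (b : ∀ y, E3.π (E2.s y) = E.π y)
    (c : ∀ x, E3.π x = E.π (E2.π x))
    {D : Derivation ℤ R k} (t : Conn D L) {w : Conn D F} {v : Conn D H}
    (h : Conn.Rel E.π v w) : Conn.Rel E3.π (sconn E2 t v) w := fun x => by
  change _ = E3.π.baseChange k
    (E2.ι.baseChange k (t.toFun (E2.p x)) + E2.s.baseChange k (v.toFun (E2.π x)))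
  rw [map_add, baseChange_apply_of_comp (h := 0) a, LinearMap.baseChange_zero,
    LinearMap.zero_apply, zero_add, baseChange_apply_of_comp b, c, h]

theorem trace_add (E : SES R N M Q) (hM : IsFP k (k ⊗[R] M)) (hN : IsFP k (k ⊗[R] N))
    (hQ : IsFP k (k ⊗[R] Q))
    {f : Module.End k (k ⊗[R] M)} {fN : Module.End k (k ⊗[R] N)} {fQ : Module.End k (k ⊗[R] Q)}
    (h1 : f ∘ₗ E.ι.baseChange k = E.ι.baseChange k ∘ₗ fN)
    (h2 : fQ ∘ₗ E.π.baseChange k = E.π.baseChange k ∘ₗ f) :
    ptr k _ f = ptr k _ fN + ptr k _ fQ := by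
  have e : E.ι ∘ₗ E.p + E.s ∘ₗ E.π = LinearMap.id := LinearMap.ext E.sum
  have e1 : f = (f ∘ₗ E.ι.baseChange k) ∘ₗ E.p.baseChange k +
      (f ∘ₗ E.s.baseChange k) ∘ₗ E.π.baseChange k := by
    rw [LinearMap.comp_assoc, LinearMap.comp_assoc, ← LinearMap.comp_add,
      ← LinearMap.baseChange_comp, ← LinearMap.baseChange_comp, ← LinearMap.baseChange_add, e,
      LinearMap.baseChange_id, LinearMap.comp_id]
  have e2 : E.p.baseChange k ∘ₗ (f ∘ₗ E.ι.baseChange k) = fN := by
    have : E.p ∘ₗ E.ι = LinearMap.id := LinearMap.ext E.pι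
    rw [h1, ← LinearMap.comp_assoc, ← LinearMap.baseChange_comp, this, LinearMap.baseChange_id,
      LinearMap.id_comp]
  have e3 : E.π.baseChange k ∘ₗ (f ∘ₗ E.s.baseChange k) = fQ := by
    have : E.π ∘ₗ E.s = LinearMap.id := LinearMap.ext E.πs
    rw [← LinearMap.comp_assoc, ← h2, LinearMap.comp_assoc, ← LinearMap.baseChange_comp, this,
      LinearMap.baseChange_id, LinearMap.comp_id]
  calc ptr k _ f = ptr k _ ((f ∘ₗ E.ι.baseChange k) ∘ₗ E.p.baseChange k) +
        ptr k _ ((f ∘ₗ E.s.baseChange k) ∘ₗ E.π.baseChange k) := by rw [← map_add, ← e1]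
    _ = _ := by rw [ptr_comm hM hN, ptr_comm hM hQ, e2, e3]

end SES

/-! ### sequences of connections -/

/-- sequences of connections -/
abbrev CT (D : ℕ → Derivation ℤ R k) (M : Type*) [AddCommGroup M] [Module R M] :=
  ∀ l, Conn (D l) M

variable {D : ℕ → Derivation ℤ R k}

/-- the product of the successive differences -/
noncomputable def prd : ℕ → List (CT D M) → Module.End k (k ⊗[R] M)
  | l, v :: w :: r => Conn.diff (v l) (w l) * prd (l + 1) (w :: r)
  | _, [_] => 1
  | _, [] => 1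

theorem prd_cons (l : ℕ) (v w : CT D M) (r : List (CT D M)) :
    prd l (v :: w :: r) = Conn.diff (v l) (w l) * prd (l + 1) (w :: r) := rfl

theorem prd_single (l : ℕ) (v : CT D M) : prd l [v] = 1 := rfl

theorem prd_bd {α : Type*} (S : α → CT D M) (r : List α) : ∀ (l : ℕ) (a b : α),
    ev (fun L => prd l (L.map S)) (bd0 (a :: b :: r)) = 0 := by
  induction r with
  | nil =>
    intro l a b
    simp only [bd0, map_zero, sub_zero, cons_single, map_sub, ev_single, List.map_cons,
      List.map_nil, prd_single, sub_self]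
  | cons c r ih =>
    intro l a b
    have h1 := ih (l + 1) b c
    rw [bd0, map_sub, ev_single, ev_cons, one_smul] at h1
    rw [bd0, bd0, map_sub, map_sub, map_sub, cons_single, ev_single, ev_single, ev_cons, ev_cons,
      one_smul, one_smul]
    have h2 : ev (fun L => prd l (List.map S (a :: b :: L))) (bd0 (c :: r)) =
        Conn.diff (S a l) (S b l) * ev (fun L => prd (l + 1) (List.map S (b :: L))) (bd0 (c :: r)) :=
      (map_ev (AddMonoidHom.mulLeft (Conn.diff (S a l) (S b l))) _ _).symm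
    rw [h2, ← sub_eq_zero.1 h1]
    simp only [List.map_cons, prd_cons]
    rw [← Conn.diff_add (S a l) (S b l) (S c l)]
    noncomm_ring

theorem prd_zero (v : CT D M) (w : List (CT D M)) (u : List (CT D M)) :
    ∀ l, prd l (u ++ v :: v :: w) = 0 := by
  induction u with
  | nil => intro l; rw [List.nil_append, prd_cons, Conn.diff_self, zero_mul]
  | cons a u ih =>
    intro l
    cases u with
    | nil => exact (prd_cons l a v _).trans (by rw [show prd (l + 1) (v :: v :: w) = 0 from
        ih (l + 1), mul_zero])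
    | cons b u =>
      exact (prd_cons l a b _).trans ((congrArg (_ * ·) (ih (l + 1))).trans (mul_zero _))

theorem prd_rel {N : Type*} [AddCommGroup N] [Module R N] {α : Type*} (f : M →ₗ[R] N)
    (U : α → CT D M) (W : α → CT D N) (L : List α) :
    (∀ a ∈ L, ∀ l, Conn.Rel f (U a l) (W a l)) → ∀ l,
      prd l (L.map W) ∘ₗ f.baseChange k = f.baseChange k ∘ₗ prd l (L.map U) := by
  induction L with
  | nil => intro _ l; rfl
  | cons a L ih =>
    intro h l
    cases L with
    | nil => rfl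
    | cons b L =>
      have h1 := ih (fun c hc => h c (List.mem_cons_of_mem _ hc)) (l + 1)
      have h2 := Conn.Rel.diff (h a List.mem_cons_self l)
        (h b (List.mem_cons_of_mem _ List.mem_cons_self) l)
      change (Conn.diff (W a l) (W b l) ∘ₗ prd (l + 1) (List.map W (b :: L))) ∘ₗ _ =
        _ ∘ₗ (Conn.diff (U a l) (U b l) ∘ₗ prd (l + 1) (List.map U (b :: L)))
      rw [LinearMap.comp_assoc, h1, ← LinearMap.comp_assoc, h2, LinearMap.comp_assoc]

/-- the trace cochain -/
noncomputable def aL (L : List (CT D M)) : k := ptr k _ (prd 0 L)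

theorem aL_bd {α : Type*} (S : α → CT D M) (a b : α) (r : List α) :
    ev (fun L => aL (L.map S)) (bd0 (a :: b :: r)) = 0 := by
  have := map_ev (ptr k (k ⊗[R] M)) (fun L => prd 0 (L.map S)) (bd0 (a :: b :: r))
  rw [prd_bd, map_zero] at this
  exact this.symm

theorem aL_zero (v : CT D M) (u w : List (CT D M)) : aL (u ++ v :: v :: w) = 0 := by
  rw [aL, prd_zero, map_zero]

theorem aL_of_subsingleton [Subsingleton M] (L : List (CT D M)) : aL L = 0 := by
  have h : ∀ z : k ⊗[R] M, z = 0 := fun z => by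
    induction z using TensorProduct.induction_on with
    | zero => rfl
    | tmul a x => rw [Subsingleton.elim x 0, TensorProduct.tmul_zero]
    | add x y hx hy => rw [hx, hy, add_zero]
  have : prd 0 L = 0 := LinearMap.ext fun z => h _
  rw [aL, this, map_zero]

end Conn

section QData

universe u w

variable {R : Type u} {k : Type w} [CommRing R] [CommRing k] [Algebra R k]

/-- the choices used to write down the cocycle: a section and a sequence of connections on the
kernel for every morphism -/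
structure QData (D : ℕ → Derivation ℤ R k) where
  sec : ∀ {X Y : QP R} (f : X ⟶ Y), X.M →ₗ[R] (toQ f).dom
  sec_spec : ∀ {X Y : QP R} (f : X ⟶ Y) (x : X.M), (toQ f).fn (sec f x) = x
  conn : ∀ {X Y : QP R} (f : X ⟶ Y), CT D (KM f)

theorem QData.exists_of (D : ℕ → Derivation ℤ R k) {X₀ Y₀ : QP R} (f₀ : X₀ ⟶ Y₀)
    (v₀ : CT D (KM f₀)) : ∃ d : QData D, d.conn f₀ = v₀ := by
  classical
  have h1 : ∀ s : (Σ X Y : QP R, X ⟶ Y), ∃ s' : s.1.M →ₗ[R] (toQ s.2.2).dom,
      ∀ x, (toQ s.2.2).fn (s' x) = x := fun s => exists_sec (toQ s.2.2)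
  have h2 : ∀ s : (Σ X Y : QP R, X ⟶ Y), Nonempty (CT D (KM s.2.2)) := fun s =>
    ⟨fun l => (Conn.nonempty_of_projective (D l) (KM s.2.2)).some⟩
  choose sec hsec using h1
  let c : ∀ s : (Σ X Y : QP R, X ⟶ Y), CT D (KM s.2.2) :=
    Function.update (fun s => (h2 s).some) ⟨X₀, Y₀, f₀⟩ v₀
  refine ⟨⟨fun {X Y} f => sec ⟨X, Y, f⟩, fun {X Y} f => hsec ⟨X, Y, f⟩,
    fun {X Y} f => c ⟨X, Y, f⟩⟩, ?_⟩
  change Function.update (fun s => (h2 s).some) ⟨X₀, Y₀, f₀⟩ v₀ ⟨X₀, Y₀, f₀⟩ = v₀
  exact Function.update_self _ _ _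

variable {D : ℕ → Derivation ℤ R k} (d : QData D)

/-- the exact sequence of a composable pair -/
def QData.ses {X Y Z : QP R} {f : X ⟶ Y} {g : Y ⟶ Z} {h : X ⟶ Z} (e : f ≫ g = h) :
    SES R (KM g) (KM h) (KM f) :=
  QKer.ses (f := toQ f) (g := toQ g) (h := toQ h) e (d.sec g) (d.sec_spec g)

/-- extension of a sequence of connections on the quotient -/
noncomputable def QData.ext {X Y Z : QP R} {f : X ⟶ Y} {g : Y ⟶ Z} {h : X ⟶ Z}
    (e : f ≫ g = h) (v : CT D (KM f)) : CT D (KM h) :=
  fun l => sconn (d.ses e) (d.conn g l) (v l)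

/-- the sequence `v` on `KM h` induces `u` on `KM g` and `w` on `KM f` -/
structure Cpt {X Y Z : QP R} {f : X ⟶ Y} {g : Y ⟶ Z} {h : X ⟶ Z} (e : f ≫ g = h)
    (w : CT D (KM f)) (u : CT D (KM g)) (v : CT D (KM h)) : Prop where
  sub : ∀ l, Conn.Rel (QKer.ι (f := toQ f) (g := toQ g) (h := toQ h) e) (u l) (v l)
  quo : ∀ l, Conn.Rel (QKer.π (f := toQ f) (g := toQ g) (h := toQ h) e) (v l) (w l)

theorem cpt_ext {X Y Z : QP R} {f : X ⟶ Y} {g : Y ⟶ Z} {h : X ⟶ Z} (e : f ≫ g = h)
    (w : CT D (KM f)) : Cpt e w (d.conn g) (d.ext e w) where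
  sub _ := rel_ι (d.ses e) _ _
  quo _ := rel_π (d.ses e) _ _

theorem Cpt.ext {X Y Z W : QP R} {f : X ⟶ Y} {g : Y ⟶ Z} {h : X ⟶ Z} {l : Z ⟶ W}
    {gl : Y ⟶ W} {m : X ⟶ W} {e : f ≫ g = h} (e1 : g ≫ l = gl) (e2 : h ≫ l = m)
    (e3 : f ≫ gl = m) {w : CT D (KM f)} {u : CT D (KM g)} {v : CT D (KM h)}
    (hc : Cpt e w u v) : Cpt e3 w (d.ext e1 u) (d.ext e2 v) where
  sub i := rel_sub (d.ses e) (d.ses e1) (d.ses e2) (d.ses e3) (fun _ => Subtype.ext rfl)
    (fun _ => Subtype.ext rfl) (fun _ => Subtype.ext rfl) (fun _ => Subtype.ext rfl)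
    (d.conn l i) (hc.sub i)
  quo i := rel_quo (d.ses e) (d.ses e2) (d.ses e3) (QKer.π_ι_zero e1 e2 e3)
    (QKer.π_s_eq e e1 e2 e3 (d.sec l) (d.sec_spec l)) (QKer.π_π e e1 e2 e3) (d.conn l i) (hc.quo i)

theorem isFP_KM {X Y : QP R} (f : X ⟶ Y) : IsFP k (k ⊗[R] KM f) := isFP k _

include d in
theorem aL_add {X Y Z : QP R} {f : X ⟶ Y} {g : Y ⟶ Z} {h : X ⟶ Z} {e : f ≫ g = h} {α : Type*}
    (W : α → CT D (KM f)) (U : α → CT D (KM g)) (V : α → CT D (KM h)) (L : List α)
    (hc : ∀ a ∈ L, Cpt e (W a) (U a) (V a)) :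
    aL (L.map V) = aL (L.map U) + aL (L.map W) :=
  trace_add (d.ses e) (isFP_KM h) (isFP_KM g) (isFP_KM f)
    (prd_rel _ U V L (fun a ha => (hc a ha).sub) 0) (prd_rel _ V W L (fun a ha => (hc a ha).quo) 0)

/-! ### the connections of a chain of morphisms -/

variable {ι : Type*} [LinearOrder ι] (x : ι ⥤ QP R)

/-- the connections on the kernel of `x a ⟶ x b` given by a decreasing list of vertices -/
noncomputable def TL (a : ι) : List ι → ∀ (b : ι) (h : a ≤ b), CT D (KM (up x h))
  | [], _, _ => d.conn _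
  | j :: L, b, h =>
    if hj : a < j ∧ j < b then d.ext (up_comp x hj.1.le hj.2.le) (TL a L j hj.1.le)
    else TL a L b h

theorem TL_pos {a j b : ι} (L : List ι) (h : a ≤ b) (h1 : a < j) (h2 : j < b) :
    TL d x a (j :: L) b h = d.ext (up_comp x h1.le h2.le) (TL d x a L j h1.le) := by
  rw [TL, dif_pos ⟨h1, h2⟩]

theorem TL_neg {a j b : ι} (L : List ι) (h : a ≤ b) (h1 : ¬ (a < j ∧ j < b)) :
    TL d x a (j :: L) b h = TL d x a L b h := by
  rw [TL, dif_neg h1]

theorem TL_filter (a : ι) (p : ι → Bool) (L : List ι) : ∀ (b : ι) (h : a ≤ b),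
    (∀ j, a < j → j < b → p j = true) → TL d x a (L.filter p) b h = TL d x a L b h := by
  induction L with
  | nil => intro b h _; rfl
  | cons j L ih =>
    intro b h hp
    by_cases hj : a < j ∧ j < b
    · rw [List.filter_cons_of_pos (hp j hj.1 hj.2), TL_pos d x _ h hj.1 hj.2,
        TL_pos d x _ h hj.1 hj.2, ih j hj.1.le fun i h1 h2 => hp i h1 (h2.trans hj.2)]
    · rw [TL_neg d x _ h hj]
      by_cases hq : p j = true
      · rw [List.filter_cons_of_pos hq, TL_neg d x _ h hj, ih b h hp]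
      · rw [List.filter_cons_of_neg hq, ih b h hp]

theorem TL_congr {a b : ι} (h : a ≤ b) {L L' : List ι} (h1 : L.Pairwise (· > ·))
    (h2 : L'.Pairwise (· > ·)) (h3 : ∀ j, a < j → j < b → (j ∈ L ↔ j ∈ L')) :
    TL d x a L b h = TL d x a L' b h := by
  rw [← TL_filter d x a (fun j => decide (a < j ∧ j < b)) L b h (fun j h1 h2 => by simp [h1, h2]),
    ← TL_filter d x a (fun j => decide (a < j ∧ j < b)) L' b h (fun j h1 h2 => by simp [h1, h2])]
  congr 1
  refine (h1.filter _).eq_of_mem_iff (h2.filter _) fun j => ?_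
  simp only [List.mem_filter, decide_eq_true_eq]
  exact ⟨fun h => ⟨(h3 j h.2.1 h.2.2).1 h.1, h.2⟩, fun h => ⟨(h3 j h.2.1 h.2.2).2 h.1, h.2⟩⟩

theorem cpt_TL {a j : ι} (h1 : a < j) (L : List ι) : L.Pairwise (· > ·) → j ∈ L →
    ∀ (b : ι) (h2 : j < b), Cpt (up_comp x h1.le h2.le) (TL d x a L j h1.le) (TL d x j L b h2.le)
      (TL d x a L b (h1.le.trans h2.le)) := by
  induction L with
  | nil => intro _ hj; exact absurd hj List.not_mem_nil
  | cons i L ih =>
    intro hL hj b h2
    rw [List.pairwise_cons] at hL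
    rcases List.mem_cons.1 hj with rfl | hj
    · rw [TL_neg d x L h1.le (fun h => lt_irrefl _ h.2), TL_pos d x L _ h1 h2,
        TL_congr d x h2.le (L := j :: L) (L' := []) (List.pairwise_cons.2 hL) List.Pairwise.nil
          (fun i h3 _ => ?_)]
      · exact cpt_ext d _ _
      · refine ⟨fun hi => ?_, fun hi => absurd hi List.not_mem_nil⟩
        rcases List.mem_cons.1 hi with rfl | hi
        · exact absurd h3 (lt_irrefl _)
        · exact absurd h3 (not_lt.2 (hL.1 i hi).le)
    · have hji : j < i := hL.1 j hj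
      rw [TL_neg d x L h1.le (fun h => lt_asymm h.2 hji)]
      by_cases hb : i < b
      · rw [TL_pos d x L _ hji hb, TL_pos d x L _ (h1.trans hji) hb]
        exact (ih hL.2 hj i hji).ext d _ _ _
      · rw [TL_neg d x L _ (fun h => hb h.2), TL_neg d x L _ (fun h => hb h.2)]
        exact ih hL.2 hj b h2

/-- the connections on the kernel of `x a ⟶ x b` given by a set of vertices -/
noncomputable def TS {a b : ι} (h : a ≤ b) (A : Finset ι) : CT D (KM (up x h)) :=
  TL d x a (A.sort (· ≥ ·)) b h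

theorem TS_congr {a b : ι} (h : a ≤ b) {A A' : Finset ι}
    (h3 : ∀ j, a < j → j < b → (j ∈ A ↔ j ∈ A')) : TS d x h A = TS d x h A' :=
  TL_congr d x h A.sortedGT_sort.pairwise A'.sortedGT_sort.pairwise fun j h1 h2 => by
    rw [Finset.mem_sort, Finset.mem_sort]
    exact h3 j h1 h2

theorem TS_insert {a b : ι} (h : a ≤ b) {i : ι} (hi : ¬ (a < i ∧ i < b)) (A : Finset ι) :
    TS d x h (insert i A) = TS d x h A :=
  TS_congr d x h fun j h1 h2 => by
    rw [Finset.mem_insert]
    exact ⟨fun h => h.resolve_left fun e => hi (e ▸ ⟨h1, h2⟩), Or.inr⟩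

theorem TS_empty {a b : ι} (h : a ≤ b) {A : Finset ι} (hA : ∀ j, a < j → j < b → j ∉ A) :
    TS d x h A = d.conn (up x h) := by
  rw [TS_congr d x h (A' := ∅) fun j h1 h2 => by simp [hA j h1 h2], TS, Finset.sort_empty]
  rfl

theorem cpt_TS {a j b : ι} (h1 : a < j) (h2 : j < b) {A : Finset ι} (hj : j ∈ A) :
    Cpt (up_comp x h1.le h2.le) (TS d x h1.le A) (TS d x h2.le A)
      (TS d x (h1.le.trans h2.le) A) :=
  cpt_TL d x h1 _ A.sortedGT_sort.pairwise ((Finset.mem_sort _).2 hj) b h2

/-- the value of the cochain on the chain with the vertices `a`, `B`, `b` -/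
noncomputable def cub {a b : ι} (h : a ≤ b) (n : ℕ) (B : Finset ι) : k :=
  ev (fun L => aL (L.map (TS d x h))) (cube n ∅ B)

theorem cub_congr {a b a' b' : ι} (h : a ≤ b) (h' : a' ≤ b') (n : ℕ) {B B' : Finset ι}
    (ha : a = a') (hb : b = b') (hB : B = B') : cub d x h n B = cub d x h' n B' := by
  subst ha hb hB
  rfl

theorem cub_of_indep {a b : ι} (h : a ≤ b) {n : ℕ} {B : Finset ι} (hB : B.card = n) {i : ι}
    (hi : i ∈ B) (hi' : ¬ (a < i ∧ i < b)) : cub d x h n B = 0 := by
  refine ev_cube_zero i n ∅ B _ hB hi fun u X w _ => ?_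
  rw [List.map_append, List.map_cons, List.map_cons, TS_insert d x h hi']
  exact aL_zero _ _ _

/-- the far faces -/
theorem far_face {a j b : ι} (h1 : a < j) (h2 : j < b) (n : ℕ) (B : Finset ι) :
    ev (fun L => aL (L.map (TS d x (h1.le.trans h2.le)))) (cube n (insert j ∅) B) =
      cub d x h2.le n B + cub d x h1.le n B := by
  rw [ev_cube_congr n _ B _ (fun L => aL (L.map (TS d x h2.le)) + aL (L.map (TS d x h1.le)))
    fun L _ hL => aL_add d _ _ _ L fun X hX =>
      cpt_TS d x h1 h2 (hL X hX (Finset.mem_insert_self j ∅)), ev_add, ev_cube_insert,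
    ev_cube_insert, cub, cub]
  have e1 : TS d x h2.le ∘ insert j = TS d x h2.le :=
    funext fun A => TS_insert d x h2.le (fun h => lt_irrefl _ h.1) A
  have e2 : TS d x h1.le ∘ insert j = TS d x h1.le :=
    funext fun A => TS_insert d x h1.le (fun h => lt_irrefl _ h.2) A
  simp only [List.map_map, e1, e2]

/-- **the cocycle identity** -/
theorem cub_cocycle {a b : ι} (h : a ≤ b) (n : ℕ) (B : Finset ι) (hB : B.card = n + 1)
    (hab : ∀ j ∈ B, a < j ∧ j < b) :
    ∑ j ∈ B.attach, sg j.1 B • (cub d x (hab j.1 j.2).2.le n (B.erase j.1) +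
      cub d x (hab j.1 j.2).1.le n (B.erase j.1) - cub d x h n (B.erase j.1)) = 0 := by
  have h1 : ev (fun L => aL (L.map (TS d x h))) (bd (cube (n + 1) ∅ B)) = 0 := by
    rw [ev_bd, ev_cube_congr (n + 1) ∅ B _ (fun _ => 0) fun L hL _ => ?_, ev_zero]
    match L, hL with
    | a :: b :: r, _ => exact aL_bd _ a b r
  rw [bd_cube n ∅ B hB, map_sum, ← Finset.sum_attach] at h1
  rw [← h1]
  refine Finset.sum_congr rfl fun j _ => ?_
  rw [map_smul, map_sub, far_face d x (hab j.1 j.2).1 (hab j.1 j.2).2]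
  rfl

theorem TL_map {κ : Type*} [LinearOrder κ] (F : κ ↪o ι) (a : κ) (L : List κ) :
    ∀ (b : κ) (h : a ≤ b), TL d (F.monotone.functor ⋙ x) a L b h =
      TL d x (F a) (L.map F) (F b) (F.monotone h) := by
  induction L with
  | nil => intro b h; rfl
  | cons j L ih =>
    intro b h
    by_cases hj : a < j ∧ j < b
    · rw [TL_pos d _ L h hj.1 hj.2, List.map_cons,
        TL_pos d x _ _ (F.lt_iff_lt.2 hj.1) (F.lt_iff_lt.2 hj.2), ih]
      rfl
    · rw [TL_neg d _ L h hj, List.map_cons,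
        TL_neg d x _ _ (fun h => hj ⟨F.lt_iff_lt.1 h.1, F.lt_iff_lt.1 h.2⟩), ih]

theorem cub_map {κ : Type*} [LinearOrder κ] (F : κ ↪o ι) {a b : κ} (h : a ≤ b) (n : ℕ)
    (B : Finset κ) : cub d (F.monotone.functor ⋙ x) h n B =
      cub d x (F.monotone h) n (B.map F.toEmbedding) := by
  have e : ∀ A : Finset κ, TS d (F.monotone.functor ⋙ x) h A =
      TS d x (F.monotone h) (A.map F.toEmbedding) := by
    intro A
    rw [TS, TL_map, TS]
    refine TL_congr d x _ ?_ (Finset.sortedGT_sort _).pairwise fun j _ _ => ?_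
    · rw [List.pairwise_map]
      exact A.sortedGT_sort.pairwise.imp fun h => F.lt_iff_lt.2 h
    · simp
  rw [cub, cub, ← Finset.map_empty F.toEmbedding, ev_cube_map]
  congr 2
  funext L
  rw [List.map_map]
  exact congrArg aL (List.map_congr_left fun A _ => e A)

theorem mem_map_Ioo {n : ℕ} (i j : Fin (n + 3)) :
    j ∈ (Finset.Ioo 0 (Fin.last (n + 1))).map (Fin.succAboveOrderEmb i).toEmbedding ↔
      j ≠ i ∧ i.succAbove 0 < j ∧ j < i.succAbove (Fin.last _) := by
  rw [Finset.mem_map]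
  constructor
  · rintro ⟨a, ha, rfl⟩
    rw [Finset.mem_Ioo] at ha
    exact ⟨Fin.succAbove_ne i a, (Fin.strictMono_succAbove i) ha.1,
      (Fin.strictMono_succAbove i) ha.2⟩
  · rintro ⟨h1, h2, h3⟩
    obtain ⟨a, rfl⟩ := Fin.exists_succAbove_eq h1
    exact ⟨a, Finset.mem_Ioo.2 ⟨(Fin.strictMono_succAbove i).lt_iff_lt.1 h2,
      (Fin.strictMono_succAbove i).lt_iff_lt.1 h3⟩, rfl⟩

/-- the value on a face -/
noncomputable def cubF (n : ℕ) (y : Fin (n + 3) ⥤ QP R) (i : Fin (n + 3)) : k :=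
  cub d y ((Fin.succAboveOrderEmb i).monotone (Fin.zero_le (Fin.last _))) n
    ((Finset.Ioo 0 (Fin.last _)).map (Fin.succAboveOrderEmb i).toEmbedding)

theorem cubF_cocycle (n : ℕ) (y : Fin (n + 3) ⥤ QP R) :
    ∑ i : Fin (n + 3), (-1 : ℤ) ^ (i : ℕ) • cubF d n y i = 0 := by
  set B : Finset (Fin (n + 3)) := Finset.Ioo 0 (Fin.last _) with hBd
  have hmem : ∀ j : Fin (n + 3), j ∈ B ↔ 0 < j.1 ∧ j.1 < n + 2 := fun j => by
    rw [hBd, Finset.mem_Ioo]; rfl
  have hB : B.card = n + 1 := by rw [hBd, Fin.card_Ioo]; rfl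
  have hab : ∀ j ∈ B, 0 < j ∧ j < Fin.last (n + 2) := fun j hj => Finset.mem_Ioo.1 hj
  have hsg : ∀ j ∈ B, sg j B = - (-1) ^ (j : ℕ) := by
    intro j hj
    have h1 : B.filter (· < j) = Finset.Ioo 0 j := by
      ext i
      rw [Finset.mem_filter, Finset.mem_Ioo (a := 0) (b := j)]
      exact ⟨fun h => ⟨(hab i h.1).1, h.2⟩, fun h =>
        ⟨Finset.mem_Ioo.2 ⟨h.1, h.2.trans (hab j hj).2⟩, h.2⟩⟩
    have h2 := ((hmem j).1 hj).1
    obtain ⟨m, hm⟩ : ∃ m, (j : ℕ) = m + 1 := ⟨j - 1, by omega⟩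
    rw [sg, h1, Fin.card_Ioo, hm, pow_succ, mul_neg_one, neg_neg]
    rfl
  have key := cub_cocycle d y (Fin.zero_le (Fin.last _)) n B hB hab
  let one : Fin (n + 3) := ⟨1, by omega⟩
  let pen : Fin (n + 3) := ⟨n + 1, by omega⟩
  have h1B : one ∈ B := (hmem _).2 ⟨Nat.one_pos, by change 1 < n + 2; omega⟩
  have hpB : pen ∈ B := (hmem _).2 ⟨Nat.succ_pos n, Nat.lt_succ_self _⟩
  have hcard : ∀ j ∈ B, (B.erase j).card = n := fun j hj => by
    rw [Finset.card_erase_of_mem hj, hB]; rfl
  simp only [smul_sub, smul_add, Finset.sum_sub_distrib, Finset.sum_add_distrib] at key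
  rw [Finset.sum_eq_single ⟨one, h1B⟩ (fun j _ hj => ?_) (fun h => absurd (Finset.mem_attach _ _) h),
    Finset.sum_eq_single ⟨pen, hpB⟩ (fun j _ hj => ?_) (fun h => absurd (Finset.mem_attach _ _) h),
    Finset.sum_attach B fun j => sg j B • cub d y
      (Fin.zero_le (Fin.last _)) n (B.erase j)] at key
  · have hU : (Finset.univ : Finset (Fin (n + 3))) = insert 0 (insert (Fin.last _) B) := by
      ext j
      simp only [Finset.mem_univ, Finset.mem_insert, hmem, Fin.ext_iff, Fin.val_zero, Fin.val_last,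
        true_iff]
      omega
    rw [hU, Finset.sum_insert (by simp [hmem, Fin.ext_iff]), Finset.sum_insert (by simp [hmem])]
    have e0 : cubF d n y 0 =
        cub d y (hab one h1B).2.le n (B.erase one) := by
      refine cub_congr d _ _ _ n rfl rfl (Finset.ext fun j => ?_)
      rw [mem_map_Ioo, Finset.mem_erase, hmem]
      simp only [Fin.zero_succAbove, Fin.lt_def, Fin.val_succ, Fin.val_zero, Fin.val_last, ne_eq,
        Fin.ext_iff, one]
      omega
    have e1 : cubF d n y (Fin.last _) =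
        cub d y (hab pen hpB).1.le n (B.erase pen) := by
      refine cub_congr d _ _ _ n (Fin.succAbove_last_apply 0)
        (Fin.succAbove_last_apply (Fin.last _))
        (Finset.ext fun j => ?_)
      rw [mem_map_Ioo, Finset.mem_erase, hmem]
      simp only [Fin.succAbove_last_apply, Fin.lt_def, Fin.val_castSucc, Fin.val_zero, Fin.val_last,
        ne_eq, Fin.ext_iff, pen]
      omega
    have e2 : ∀ j ∈ B, cubF d n y j =
        cub d y (Fin.zero_le (Fin.last _)) n (B.erase j) := by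
      intro j hj
      have a1 : j.succAbove 0 = 0 := Fin.succAbove_ne_zero_zero (hab j hj).1.ne'
      have a2 : j.succAbove (Fin.last _) = Fin.last _ := Fin.succAbove_ne_last_last (hab j hj).2.ne
      refine cub_congr d _ _ _ n a1 a2 (Finset.ext fun i => ?_)
      rw [mem_map_Ioo, Finset.mem_erase, a1, a2, hBd, Finset.mem_Ioo]
    rw [e0, e1, Finset.sum_congr rfl fun j hj => congrArg _ (e2 j hj)]
    rw [hsg one h1B, hsg pen hpB, Finset.sum_congr rfl fun j hj => congrArg (· • _) (hsg j hj)]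
      at key
    simp only [neg_smul, Finset.sum_neg_distrib, sub_neg_eq_add] at key
    rw [← key, Fin.val_zero, Fin.val_last, pow_zero, pow_succ (-1 : ℤ) (n + 1), mul_neg_one,
      neg_smul]
    refine Eq.trans ?_ (add_assoc _ _ _).symm
    congr 1
    change _ = - ((-1 : ℤ) ^ 1 • _)
    rw [pow_one, neg_smul, neg_neg]
  · have hlt : j.1 < pen := by
      have h2 := ((hmem _).1 j.2).2
      have h3 : j.1.1 ≠ n + 1 := fun e => hj (Subtype.ext (Fin.ext e))
      change j.1.1 < n + 1
      omega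
    rw [cub_of_indep d _ _ (hcard _ j.2) (Finset.mem_erase.2 ⟨hlt.ne', hpB⟩)
      (fun h => lt_asymm h.2 hlt), smul_zero]
  · have hlt : one < j.1 := by
      have h2 := ((hmem _).1 j.2).1
      have h3 : j.1.1 ≠ 1 := fun e => hj (Subtype.ext (Fin.ext e))
      change 1 < j.1.1
      omega
    rw [cub_of_indep d _ _ (hcard _ j.2) (Finset.mem_erase.2 ⟨hlt.ne, h1B⟩)
      (fun h => lt_asymm h.1 hlt), smul_zero]

open Simplicial

/-- the cochain on the nerve -/
noncomputable def qc (n : ℕ) (y : (nerve (QP R)) _⦋n + 1⦌) : k :=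
  cub d (ι := Fin (n + 2)) y (Fin.zero_le (Fin.last _)) n (Finset.Ioo 0 (Fin.last _))

theorem qc_δ (n : ℕ) (y : (nerve (QP R)) _⦋n + 2⦌) (i : Fin (n + 3)) :
    qc d n ((nerve (QP R)).δ i y) = cubF d n y i :=
  cub_map d (ι := Fin (n + 3)) y (Fin.succAboveOrderEmb i) (Fin.zero_le (Fin.last _)) n _

/-- **the cocycle identity on the nerve of `QP R`** -/
theorem qc_cocycle (n : ℕ) (y : (nerve (QP R)) _⦋n + 2⦌) :
    ∑ i : Fin (n + 3), (-1 : ℤ) ^ (i : ℕ) • qc d n ((nerve (QP R)).δ i y) = 0 :=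
  (Finset.sum_congr rfl fun i _ => congrArg _ (qc_δ d n y i)).trans (cubF_cocycle d n y)

end QData

end Vale.Agent.N178
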