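import Mathlib

/-!
# Chains of lists, the fundamental chain of a cube and Stokes' formula in every dimension

Also: the trace of an endomorphism of a finitely generated projective module.
-/

namespace Vale.Agent.N178

section Lists

variable {α β : Type*} {N : Type*} [AddCommGroup N]

/-- chains of lists -/
abbrev FL (α : Type*) : Type _ := List α →₀ ℤ

/-- the cone operator -/
noncomputable def cons (a : α) : FL α →ₗ[ℤ] FL α := Finsupp.lmapDomain ℤ ℤ fun l => a :: l

theorem cons_single (a : α) (l : List α) (n : ℤ) :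
    cons a (Finsupp.single l n) = Finsupp.single (a :: l) n := by
  rw [cons, Finsupp.lmapDomain_apply, Finsupp.mapDomain_single]

/-- the boundary of a list -/
noncomputable def bd0 : List α → FL α
  | [] => 0
  | a :: l => Finsupp.single l 1 - cons a (bd0 l)

/-- evaluation of a function on a chain -/
noncomputable def ev (f : List α → N) : FL α →ₗ[ℤ] N := Finsupp.linearCombination ℤ f

theorem ev_single (f : List α → N) (l : List α) (n : ℤ) : ev f (Finsupp.single l n) = n • f l :=
  Finsupp.linearCombination_single ℤ n l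

/-- the boundary -/
noncomputable def bd : FL α →ₗ[ℤ] FL α := ev bd0

theorem bd_single (l : List α) (n : ℤ) : bd (Finsupp.single l n) = n • bd0 l := ev_single _ _ _

theorem ev_cons (f : List α → N) (a : α) (z : FL α) :
    ev f (cons a z) = ev (fun l => f (a :: l)) z := by
  induction z using Finsupp.induction_linear with
  | zero => simp
  | add x y hx hy => simp only [map_add, hx, hy]
  | single l n => rw [cons_single, ev_single, ev_single]

theorem bd_cons (a : α) (z : FL α) : bd (cons a z) = z - cons a (bd z) := by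
  induction z using Finsupp.induction_linear with
  | zero => simp
  | add x y hx hy => simp only [map_add, hx, hy]; abel
  | single l n =>
    rw [cons_single, bd_single, bd_single, bd0, smul_sub, map_smul, Finsupp.smul_single,
      smul_eq_mul, mul_one]

theorem ev_add (f g : List α → N) (z : FL α) :
    ev (fun l => f l + g l) z = ev f z + ev g z := by
  induction z using Finsupp.induction_linear with
  | zero => simp
  | add x y hx hy => simp only [map_add, hx, hy]; abel
  | single l n => rw [ev_single, ev_single, ev_single, smul_add]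

theorem ev_zero (z : FL α) : ev (fun _ => (0 : N)) z = 0 := by
  induction z using Finsupp.induction_linear with
  | zero => simp
  | add x y hx hy => simp only [map_add, hx, hy, add_zero]
  | single l n => rw [ev_single, smul_zero]

theorem map_ev {N' : Type*} [AddCommGroup N'] (φ : N →+ N') (f : List α → N) (z : FL α) :
    φ (ev f z) = ev (fun l => φ (f l)) z := by
  induction z using Finsupp.induction_linear with
  | zero => simp
  | add x y hx hy => simp only [map_add, hx, hy]
  | single l n => rw [ev_single, ev_single, map_zsmul]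

theorem ev_bd (f : List α → N) (z : FL α) : ev f (bd z) = ev (fun l => ev f (bd0 l)) z :=
  map_ev (ev f).toAddMonoidHom bd0 z

end Lists

section Cube

variable {ι : Type*} [LinearOrder ι] {N : Type*} [AddCommGroup N]

/-- the sign of the direction `j` among the directions `B` -/
def sg (j : ι) (B : Finset ι) : ℤ := (-1) ^ (B.filter (· < j)).card

theorem sg_erase_of_lt {i j : ι} {B : Finset ι} (hi : i ∈ B) (h : i < j) :
    sg j B = - sg j (B.erase i) := by
  have h1 : B.filter (· < j) = insert i ((B.erase i).filter (· < j)) := by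
    ext x
    simp only [Finset.mem_filter, Finset.mem_insert, Finset.mem_erase]
    constructor
    · rintro ⟨h1, h2⟩
      by_cases hx : x = i
      · exact Or.inl hx
      · exact Or.inr ⟨⟨hx, h1⟩, h2⟩
    · rintro (rfl | ⟨⟨-, h1⟩, h2⟩)
      · exact ⟨hi, h⟩
      · exact ⟨h1, h2⟩
  rw [sg, sg, h1, Finset.card_insert_of_notMem (by simp), pow_succ, mul_neg_one]

theorem sg_erase_of_gt {i j : ι} (B : Finset ι) (h : j < i) : sg j (B.erase i) = sg j B := by
  have h1 : (B.erase i).filter (· < j) = B.filter (· < j) := by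
    ext x
    simp only [Finset.mem_filter, Finset.mem_erase]
    constructor
    · rintro ⟨⟨-, h1⟩, h2⟩
      exact ⟨h1, h2⟩
    · rintro ⟨h1, h2⟩
      exact ⟨⟨fun e => absurd (e ▸ h2) (not_lt.2 h.le), h1⟩, h2⟩
  rw [sg, sg, h1]

theorem sg_anti {i j : ι} {B : Finset ι} (hi : i ∈ B) (hj : j ∈ B) (h : i ≠ j) :
    sg j B * sg i (B.erase j) = - (sg i B * sg j (B.erase i)) := by
  rcases lt_or_gt_of_ne h with h | h
  · rw [sg_erase_of_lt hi h, sg_erase_of_gt B h]; ring
  · rw [sg_erase_of_lt hj h, sg_erase_of_gt B h]; ring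

/-- the fundamental chain of the cube of the sets between `A` and `A ∪ B` -/
noncomputable def cube : ℕ → Finset ι → Finset ι → FL (Finset ι)
  | 0, A, _ => Finsupp.single [A] 1
  | n + 1, A, B => cons A (∑ j ∈ B, sg j B • cube n (insert j A) (B.erase j))

theorem sum_swap_erase {M : Type*} [AddCommMonoid M] (B : Finset ι) (F : ι → ι → M) :
    ∑ j ∈ B, ∑ i ∈ B.erase j, F j i = ∑ i ∈ B, ∑ j ∈ B.erase i, F j i := by
  refine Finset.sum_comm' fun j i => ?_
  simp only [Finset.mem_erase]
  constructor
  · rintro ⟨h1, h2, h3⟩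
    exact ⟨⟨fun e => h2 e.symm, h1⟩, h3⟩
  · rintro ⟨⟨h1, h2⟩, h3⟩
    exact ⟨h2, fun e => h1 e.symm, h3⟩

/-- **Stokes' formula** -/
theorem bd_cube (n : ℕ) : ∀ (A B : Finset ι), B.card = n + 1 → bd (cube (n + 1) A B) =
    ∑ j ∈ B, sg j B • (cube n (insert j A) (B.erase j) - cube n A (B.erase j)) := by
  induction n with
  | zero =>
    intro A B hB
    obtain ⟨j, rfl⟩ := Finset.card_eq_one.1 hB
    rw [cube, bd_cons]
    simp only [Finset.sum_singleton, cube, map_smul, bd_single, bd0, map_zero, sub_zero, one_smul,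
      cons_single, smul_sub]
  | succ n ih =>
    intro A B hB
    rw [cube, bd_cons]
    simp only [smul_sub]
    rw [Finset.sum_sub_distrib]
    congr 1
    have h1 : bd (∑ j ∈ B, sg j B • cube (n + 1) (insert j A) (B.erase j)) =
        ∑ j ∈ B, ∑ i ∈ B.erase j, (sg j B * sg i (B.erase j)) •
          cube n (insert i (insert j A)) ((B.erase j).erase i) -
        ∑ j ∈ B, ∑ i ∈ B.erase j, (sg j B * sg i (B.erase j)) •
          cube n (insert j A) ((B.erase j).erase i) := by
      rw [map_sum, ← Finset.sum_sub_distrib]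
      refine Finset.sum_congr rfl fun j hj => ?_
      rw [map_smul, ih _ _ (by rw [Finset.card_erase_of_mem hj, hB]; rfl), Finset.smul_sum,
        ← Finset.sum_sub_distrib]
      refine Finset.sum_congr rfl fun i _ => ?_
      rw [smul_smul, smul_sub]
    have h2 : ∑ j ∈ B, ∑ i ∈ B.erase j, (sg j B * sg i (B.erase j)) •
        cube n (insert i (insert j A)) ((B.erase j).erase i) = 0 := by
      have h3 := sum_swap_erase B fun j i => (sg j B * sg i (B.erase j)) •
        cube n (insert i (insert j A)) ((B.erase j).erase i)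
      have h4 : ∑ i ∈ B, ∑ j ∈ B.erase i, (sg j B * sg i (B.erase j)) •
          cube n (insert i (insert j A)) ((B.erase j).erase i) =
          - ∑ i ∈ B, ∑ j ∈ B.erase i, (sg i B * sg j (B.erase i)) •
          cube n (insert j (insert i A)) ((B.erase i).erase j) := by
        rw [← Finset.sum_neg_distrib]
        refine Finset.sum_congr rfl fun i hi => ?_
        rw [← Finset.sum_neg_distrib]
        refine Finset.sum_congr rfl fun j hj => ?_
        rw [Finset.mem_erase] at hj
        rw [sg_anti hi hj.2 hj.1.symm, neg_smul, Finset.insert_comm, Finset.erase_right_comm]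
      rw [h4] at h3
      have h5 := eq_neg_iff_add_eq_zero.1 h3
      rw [← two_smul ℤ] at h5
      exact (smul_eq_zero.1 h5).resolve_left two_ne_zero
    have h3 : ∑ j ∈ B, ∑ i ∈ B.erase j, (sg j B * sg i (B.erase j)) •
        cube n (insert j A) ((B.erase j).erase i) =
        - ∑ i ∈ B, sg i B • ∑ j ∈ B.erase i, sg j (B.erase i) •
          cube n (insert j A) ((B.erase i).erase j) := by
      rw [sum_swap_erase, ← Finset.sum_neg_distrib]
      refine Finset.sum_congr rfl fun i hi => ?_
      rw [Finset.smul_sum, ← Finset.sum_neg_distrib]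
      refine Finset.sum_congr rfl fun j hj => ?_
      rw [Finset.mem_erase] at hj
      rw [sg_anti hi hj.2 hj.1.symm, neg_smul, smul_smul, Finset.erase_right_comm]
    rw [h1, h2, h3, zero_sub, neg_neg, map_sum]
    refine Finset.sum_congr rfl fun i _ => ?_
    rw [map_smul, cube]

/-- only the lists of length `n + 1` of sets which contain `A` matter -/
theorem ev_cube_congr (n : ℕ) : ∀ (A B : Finset ι) (f g : List (Finset ι) → N),
    (∀ L : List (Finset ι), L.length = n + 1 → (∀ X ∈ L, A ⊆ X) → f L = g L) →
    ev f (cube n A B) = ev g (cube n A B) := by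
  induction n with
  | zero =>
    intro A B f g h
    rw [cube, ev_single, ev_single, h [A] rfl (by simp)]
  | succ n ih =>
    intro A B f g h
    rw [cube, ev_cons, ev_cons, map_sum, map_sum]
    refine Finset.sum_congr rfl fun j _ => ?_
    rw [map_smul, map_smul, ih _ _ _ (fun l => g (A :: l)) fun L hL hA => ?_]
    refine h _ (by rw [List.length_cons, hL]) fun X hX => ?_
    rcases List.mem_cons.1 hX with rfl | hX
    · exact Finset.Subset.refl _
    · exact (Finset.subset_insert j A).trans (hA X hX)

theorem cube_eq_cons (n : ℕ) (A B : Finset ι) : ∃ z, cube n A B = cons A z := by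
  cases n with
  | zero => exact ⟨Finsupp.single [] 1, by rw [cube, cons_single]⟩
  | succ n => exact ⟨_, rfl⟩

/-- a function which vanishes on the lists with a step in the direction `j` vanishes on the
cube -/
theorem ev_cube_zero (j : ι) (n : ℕ) : ∀ (A B : Finset ι) (f : List (Finset ι) → N),
    B.card = n → j ∈ B →
    (∀ (u : List (Finset ι)) (X : Finset ι) (w : List (Finset ι)), A ⊆ X →
      f (u ++ X :: insert j X :: w) = 0) → ev f (cube n A B) = 0 := by
  induction n with
  | zero =>
    intro A B f hB hj
    rw [Finset.card_eq_zero.1 hB] at hj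
    exact absurd hj (Finset.notMem_empty j)
  | succ n ih =>
    intro A B f hB hj h
    rw [cube, ev_cons, map_sum]
    refine Finset.sum_eq_zero fun i hi => ?_
    rw [map_smul]
    by_cases hij : i = j
    · subst hij
      obtain ⟨z, hz⟩ := cube_eq_cons n (insert i A) (B.erase i)
      rw [hz, ev_cons]
      have : (fun l => f (A :: insert i A :: l)) = fun _ => 0 :=
        funext fun l => h [] A l (Finset.Subset.refl _)
      rw [this, ev_zero, smul_zero]
    · rw [ih _ _ _ (by rw [Finset.card_erase_of_mem hi, hB]; rfl)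
        (Finset.mem_erase.2 ⟨Ne.symm hij, hj⟩) fun u X w hX =>
          h (A :: u) X w ((Finset.subset_insert i A).trans hX), smul_zero]

/-- translation of a cube -/
theorem ev_cube_insert (j : ι) (n : ℕ) : ∀ (A B : Finset ι) (f : List (Finset ι) → N),
    ev f (cube n (insert j A) B) = ev (fun L => f (L.map (insert j))) (cube n A B) := by
  induction n with
  | zero =>
    intro A B f
    rw [cube, cube, ev_single, ev_single]
    rfl
  | succ n ih =>
    intro A B f
    rw [cube, cube, ev_cons, ev_cons, map_sum, map_sum]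
    refine Finset.sum_congr rfl fun i _ => ?_
    rw [map_smul, map_smul, Finset.insert_comm, ih]
    rfl

theorem sg_map {κ : Type*} [LinearOrder κ] (F : ι ↪o κ) (j : ι) (B : Finset ι) :
    sg (F j) (B.map F.toEmbedding) = sg j B := by
  rw [sg, sg, Finset.filter_map, Finset.card_map]
  congr 2
  exact Finset.filter_congr fun x _ => F.lt_iff_lt

/-- naturality in the set of directions -/
theorem ev_cube_map {κ : Type*} [LinearOrder κ] (F : ι ↪o κ) (n : ℕ) :
    ∀ (A B : Finset ι) (f : List (Finset κ) → N),
    ev f (cube n (A.map F.toEmbedding) (B.map F.toEmbedding)) =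
      ev (fun L => f (L.map (Finset.map F.toEmbedding))) (cube n A B) := by
  induction n with
  | zero =>
    intro A B f
    rw [cube, cube, ev_single, ev_single]
    rfl
  | succ n ih =>
    intro A B f
    rw [cube, cube, ev_cons, ev_cons, map_sum, map_sum, Finset.sum_map]
    refine Finset.sum_congr rfl fun i _ => ?_
    rw [map_smul, map_smul, ← Finset.map_insert, ← Finset.map_erase, ih]
    exact congrArg₂ (· • ·) (sg_map F i B) rfl

end Cube

section Trace

variable (k : Type*) [CommRing k] (V : Type*) [AddCommGroup V] [Module k V]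

/-- `V` is a direct summand of a finite free module -/
def IsFP : Prop := ∃ (n : ℕ) (p : (V →ₗ[k] (Fin n → k)) × ((Fin n → k) →ₗ[k] V)),
  p.2 ∘ₗ p.1 = LinearMap.id

theorem isFP [Module.Finite k V] [Module.Projective k V] : IsFP k V := by
  obtain ⟨n, f, g, -, -, h⟩ := Module.Finite.exists_comp_eq_id_of_projective k V
  exact ⟨n, (g, f), h⟩

open Classical in
/-- the trace of an endomorphism of a finitely generated projective module -/
noncomputable def ptr : Module.End k V →+ k :=
  if h : IsFP k V then
    { toFun := fun f => LinearMap.trace k _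
        (h.choose_spec.choose.1 ∘ₗ f ∘ₗ h.choose_spec.choose.2)
      map_zero' := by rw [LinearMap.zero_comp, LinearMap.comp_zero, map_zero]
      map_add' := fun f g => by rw [LinearMap.add_comp, LinearMap.comp_add, map_add] }
  else 0

variable {k V}

theorem ptr_eq (hV : IsFP k V) {F : Type*} [AddCommGroup F] [Module k F] [Module.Free k F]
    [Module.Finite k F] (i : V →ₗ[k] F) (r : F →ₗ[k] V) (h : r ∘ₗ i = LinearMap.id)
    (f : Module.End k V) : ptr k V f = LinearMap.trace k F (i ∘ₗ f ∘ₗ r) := by
  rw [ptr, dif_pos hV]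
  have h0 := hV.choose_spec.choose_spec
  set i0 := hV.choose_spec.choose.1
  set r0 := hV.choose_spec.choose.2
  change LinearMap.trace k _ (i0 ∘ₗ f ∘ₗ r0) = _
  have e1 : i0 ∘ₗ f ∘ₗ r0 = (i0 ∘ₗ f ∘ₗ r) ∘ₗ (i ∘ₗ r0) := by
    rw [LinearMap.comp_assoc, LinearMap.comp_assoc, ← LinearMap.comp_assoc r0 i r, h,
      LinearMap.id_comp]
  have e2 : (i ∘ₗ r0) ∘ₗ (i0 ∘ₗ f ∘ₗ r) = i ∘ₗ f ∘ₗ r := by
    rw [LinearMap.comp_assoc, ← LinearMap.comp_assoc (f ∘ₗ r) i0 r0, h0, LinearMap.id_comp]
  rw [e1, LinearMap.trace_comp_comm', e2]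

theorem ptr_comm {W : Type*} [AddCommGroup W] [Module k W] (hV : IsFP k V) (hW : IsFP k W)
    (g : V →ₗ[k] W) (h : W →ₗ[k] V) : ptr k V (h ∘ₗ g) = ptr k W (g ∘ₗ h) := by
  obtain ⟨n, ⟨i, r⟩, e⟩ := id hV
  obtain ⟨n', ⟨i', r'⟩, e'⟩ := id hW
  rw [ptr_eq hV i r e, ptr_eq hW i' r' e']
  have e1 : i ∘ₗ (h ∘ₗ g) ∘ₗ r = (i ∘ₗ h ∘ₗ r') ∘ₗ (i' ∘ₗ g ∘ₗ r) := by
    refine LinearMap.ext fun x => ?_
    have := LinearMap.congr_fun e' (g (r x))
    simp only [LinearMap.comp_apply, LinearMap.id_apply] at this ⊢
    rw [this]
  have e2 : i' ∘ₗ (g ∘ₗ h) ∘ₗ r' = (i' ∘ₗ g ∘ₗ r) ∘ₗ (i ∘ₗ h ∘ₗ r') := by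
    refine LinearMap.ext fun x => ?_
    have := LinearMap.congr_fun e (h (r' x))
    simp only [LinearMap.comp_apply, LinearMap.id_apply] at this ⊢
    rw [this]
  rw [e1, e2, LinearMap.trace_comp_comm']

/-- the trace of an endomorphism which is diagonal in coordinates -/
theorem ptr_of_diag {κ : Type*} [Fintype κ] [DecidableEq κ] (e : V →ₗ[k] (κ → k))
    (he : Function.Bijective e) (E : Module.End k V) (δ : κ → k)
    (h : ∀ y i, e (E y) i = δ i * e y i) : ptr k V E = ∑ i, δ i := by
  let e' : V ≃ₗ[k] (κ → k) := LinearEquiv.ofBijective e he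
  have : Module.Finite k V := Module.Finite.equiv e'.symm
  have : Module.Projective k V := Module.Projective.of_equiv e'.symm
  rw [ptr_eq (isFP k V) e'.toLinearMap e'.symm.toLinearMap (LinearMap.ext fun x => by simp)]
  have h1 : e'.toLinearMap ∘ₗ E ∘ₗ e'.symm.toLinearMap = Matrix.toLin' (Matrix.diagonal δ) := by
    refine LinearMap.ext fun y => funext fun i => ?_
    rw [Matrix.toLin'_apply, Matrix.mulVec_diagonal]
    have h2 : e' (E (e'.symm y)) i = δ i * e' (e'.symm y) i := h _ i
    rw [LinearEquiv.apply_symm_apply] at h2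
    exact h2
  rw [h1, Matrix.trace_toLin'_eq, Matrix.trace_diagonal]

end Trace

end Vale.Agent.N178
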