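import Vale.Agent.N178.Coc
import Vale.Agent.P178.H847.EvalB
import Vale.Agent.P178.H676.Nat

/-!
# The values of the cocycle on the simplices which come from the suspension of a group of matrices
-/

open CategoryTheory
open scoped TensorProduct
open Vale.Agent.P178.H847 (QHom QP crd topM crd_bijective)
open Vale.Agent.P178.H873 (SES QKer toQ KM up up_comp)
open Vale.Agent.P178.H51 (glAut glAut_apply topAut topAut_coe glAut_one glAut_mul topAut_refl
  topAut_trans)
open Vale.Agent.P178.H676 (Susp)

namespace Vale.Agent.N178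

universe u w

section Fib

variable {R : Type u} {k : Type w} [CommRing R] [CommRing k] [Algebra R k]
variable {κ : Type} [Fintype κ] [DecidableEq κ]
variable {M N : Type*} [AddCommGroup M] [Module R M] [AddCommGroup N] [Module R N]

/-- the coordinates of the fibre given by coordinates of the module -/
noncomputable def fib (k : Type w) [CommRing k] [Algebra R k] (c : M →ₗ[R] (κ → R)) :
    k ⊗[R] M →ₗ[k] (κ → k) :=
  LinearMap.liftBaseChange k
    { toFun := fun x i => algebraMap R k (c x i)
      map_add' := fun x y => by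
        funext i
        rw [map_add, Pi.add_apply, map_add, Pi.add_apply]
      map_smul' := fun r x => by
        funext i
        rw [map_smul, Pi.smul_apply, smul_eq_mul, map_mul, RingHom.id_apply, Pi.smul_apply,
          Algebra.smul_def] }

omit [Fintype κ] [DecidableEq κ] in
theorem fib_tmul (c : M →ₗ[R] (κ → R)) (a : k) (x : M) (i : κ) :
    fib k c (a ⊗ₜ x) i = a * algebraMap R k (c x i) := rfl

omit [Fintype κ] [DecidableEq κ] in
theorem fib_baseChange {f : M →ₗ[R] N} {c : M →ₗ[R] (κ → R)} {c' : N →ₗ[R] (κ → R)}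
    {χ : κ → Rˣ} (h : ∀ x i, c' (f x) i = χ i * c x i) (z : k ⊗[R] M) (i : κ) :
    fib k c' (f.baseChange k z) i = algebraMap R k (χ i) * fib k c z i := by
  induction z using TensorProduct.induction_on with
  | zero => simp
  | tmul a x =>
    rw [LinearMap.baseChange_tmul, fib_tmul, fib_tmul, h, map_mul]
    ring
  | add x y hx hy => rw [map_add, map_add, Pi.add_apply, hx, hy, map_add, Pi.add_apply, mul_add]

/-- the logarithmic derivative -/
noncomputable def dlo (D : Derivation ℤ R k) (u : Rˣ) : k := algebraMap R k ((u⁻¹ : Rˣ) : R) * D u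

theorem unit_mul_inv (k : Type w) [CommRing k] [Algebra R k] (u : Rˣ) :
    algebraMap R k ((u⁻¹ : Rˣ) : R) * algebraMap R k (u : R) = 1 := by
  rw [← map_mul, Units.inv_mul, map_one]

theorem dlo_mul (D : Derivation ℤ R k) (a b : Rˣ) : dlo D (a * b) = dlo D a + dlo D b := by
  unfold dlo
  have h1 := unit_mul_inv k a
  have h2 := unit_mul_inv k b
  rw [Units.val_mul, Derivation.leibniz, mul_inv, Units.val_mul, map_mul, Algebra.smul_def,
    Algebra.smul_def]
  linear_combination algebraMap R k ((a⁻¹ : Rˣ) : R) * D (a : R) * h2 +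
    algebraMap R k ((b⁻¹ : Rˣ) : R) * D (b : R) * h1

theorem dlo_one (D : Derivation ℤ R k) : dlo D 1 = 0 := by
  have := dlo_mul D 1 1
  rw [mul_one] at this
  exact left_eq_add.1 this

/-- the connection is given in the coordinates `c` by `x_i ↦ D x_i + dlog(χ_i) x_i` -/
def Tw {D : Derivation ℤ R k} (c : M →ₗ[R] (κ → R)) (χ : κ → Rˣ) (v : Conn D M) : Prop :=
  ∀ x i, fib k c (v.toFun x) i = D (c x i) + dlo D (χ i) * algebraMap R k (c x i)

omit [Fintype κ] [DecidableEq κ] in
theorem Tw.of_rel {D : Derivation ℤ R k} {f : M →ₗ[R] N} {c : M →ₗ[R] (κ → R)}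
    {c' : N →ₗ[R] (κ → R)} {χ : κ → Rˣ} (h : ∀ x i, c' (f x) i = χ i * c x i)
    {v : Conn D M} {w : Conn D N} (hr : Conn.Rel f v w) (hw : Tw c' 1 w) : Tw c χ v := by
  intro x i
  have h1 : fib k c' (w.toFun (f x)) i = fib k c' (f.baseChange k (v.toFun x)) i :=
    congrArg (fun z => fib k c' z i) (hr x)
  rw [fib_baseChange h, hw (f x) i, h, Derivation.leibniz, Pi.one_apply, dlo_one, zero_mul,
    add_zero, Algebra.smul_def, Algebra.smul_def] at h1
  have h2 := unit_mul_inv k (χ i)
  unfold dlo
  linear_combination (-algebraMap R k (((χ i)⁻¹ : Rˣ) : R)) * h1 +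
    (D (c x i) - fib k c (v.toFun x) i) * h2

omit [Fintype κ] [DecidableEq κ] in
theorem Tw.diff {D : Derivation ℤ R k} {c : M →ₗ[R] (κ → R)} {χ χ' : κ → Rˣ}
    {v v' : Conn D M} (h : Tw c χ v) (h' : Tw c χ' v') (z : k ⊗[R] M) (i : κ) :
    fib k c (Conn.diff v v' z) i = (dlo D (χ' i) - dlo D (χ i)) * fib k c z i := by
  induction z using TensorProduct.induction_on with
  | zero => simp
  | tmul a x =>
    rw [Conn.diff_tmul, map_smul, map_sub, Pi.smul_apply, Pi.sub_apply, h x i, h' x i, fib_tmul,
      smul_eq_mul]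
    ring
  | add x y hx hy => rw [map_add, map_add, Pi.add_apply, hx, hy, map_add, Pi.add_apply, mul_add]

omit [Fintype κ] [DecidableEq κ] in
theorem Tw.of_rel' {D : Derivation ℤ R k} {f : M →ₗ[R] N} {c : M →ₗ[R] (κ → R)}
    {c' : N →ₗ[R] (κ → R)} {χ : κ → Rˣ} (h : ∀ x i, c' (f x) i = c x i)
    (hf : Function.Surjective f) {v : Conn D M} {w : Conn D N} (hr : Conn.Rel f v w)
    (hv : Tw c χ v) : Tw c' χ w := by
  intro y i
  obtain ⟨x, rfl⟩ := hf y
  rw [hr x, fib_baseChange (c := c) (χ := 1) (fun x i => by rw [h]; simp), hv x i, h]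
  simp

/-- the fibre of a free module -/
theorem fib_bijective (E : M ≃ₗ[R] (κ → R)) : Function.Bijective (fib k E.toLinearMap) := by
  have h : ∀ z, fib k E.toLinearMap z =
      TensorProduct.piScalarRight R k k κ (E.baseChange R k M (κ → R) z) := by
    intro z
    induction z using TensorProduct.induction_on with
    | zero => rw [map_zero, map_zero, map_zero]
    | tmul a x =>
      funext i
      rw [fib_tmul, LinearEquiv.baseChange_tmul, TensorProduct.piScalarRight_apply,
        TensorProduct.piScalarRightHom_tmul]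
      change a * algebraMap R k (E x i) = E x i • a
      rw [Algebra.smul_def, mul_comm]
    | add x y hx hy => rw [map_add, hx, hy, map_add, map_add]
  have h2 : (fib k E.toLinearMap : k ⊗[R] M → (κ → k)) =
      (TensorProduct.piScalarRight R k k κ) ∘ (E.baseChange R k M (κ → R)) := funext h
  rw [h2]
  exact (LinearEquiv.bijective _).comp (LinearEquiv.bijective _)

theorem fib_bijective' (c : M →ₗ[R] (κ → R)) (hc : Function.Bijective c) :
    Function.Bijective (fib k c) := fib_bijective (LinearEquiv.ofBijective c hc)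

/-- the standard connection of a free module -/
theorem exists_std (D : Derivation ℤ R k) (c : M →ₗ[R] (κ → R)) (hc : Function.Bijective c) :
    ∃ v : Conn D M, Tw c 1 v := by
  let e := LinearEquiv.ofBijective (fib k c) (fib_bijective' c hc)
  have he : ∀ z, e z = fib k c z := fun z => rfl
  refine ⟨⟨fun x => e.symm fun i => D (c x i), fun x y => ?_, fun r x => ?_⟩, fun x i => ?_⟩
  · apply e.injective
    rw [map_add e, LinearEquiv.apply_symm_apply, LinearEquiv.apply_symm_apply,
      LinearEquiv.apply_symm_apply]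
    funext i
    rw [map_add, Pi.add_apply, map_add, Pi.add_apply]
  · apply e.injective
    rw [map_add e, LinearEquiv.apply_symm_apply]
    have h1 : e (r • e.symm fun i => D (c x i)) = r • fun i => D (c x i) := by
      rw [← algebraMap_smul k r (e.symm fun i => D (c x i)), map_smul,
        LinearEquiv.apply_symm_apply, algebraMap_smul]
    rw [h1, he]
    funext i
    rw [Pi.add_apply, fib_tmul, map_smul, Pi.smul_apply, smul_eq_mul, Derivation.leibniz,
      Pi.smul_apply, Algebra.smul_def (c x i)]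
    ring
  · have : fib k c (e.symm fun i => D (c x i)) = fun i => D (c x i) := e.apply_symm_apply _
    change fib k c (e.symm fun i => D (c x i)) i = _
    rw [this, Pi.one_apply, dlo_one, zero_mul, add_zero]

/-- the product of the successive differences -/
def prs {α : Type*} (ψ : ℕ → α → k) : ℕ → List α → k
  | l, a :: b :: r => (ψ l b - ψ l a) * prs ψ (l + 1) (b :: r)
  | _, [_] => 1
  | _, [] => 1

theorem prs_cons {α : Type*} (ψ : ℕ → α → k) (l : ℕ) (a b : α) (r : List α) :
    prs ψ l (a :: b :: r) = (ψ l b - ψ l a) * prs ψ (l + 1) (b :: r) := rfl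

theorem prs_zero {α : Type*} (ψ : ℕ → α → k) {a b : α} (h : ∀ l, ψ l b = ψ l a) (w u : List α) :
    ∀ l, prs ψ l (u ++ a :: b :: w) = 0 := by
  induction u with
  | nil => intro l; rw [List.nil_append, prs_cons, h, sub_self, zero_mul]
  | cons c u ih =>
    intro l
    cases u with
    | nil => exact (prs_cons ψ l c a _).trans ((congrArg (_ * ·) (ih (l + 1))).trans (mul_zero _))
    | cons c' u =>
      exact (prs_cons ψ l c c' _).trans ((congrArg (_ * ·) (ih (l + 1))).trans (mul_zero _))

variable {D : ℕ → Derivation ℤ R k}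

omit [Fintype κ] [DecidableEq κ] in
theorem prd_diag {α : Type*} {c : M →ₗ[R] (κ → R)} (S : α → CT D M) (χ : α → κ → Rˣ)
    (h : ∀ a l, Tw c (χ a) (S a l)) (i : κ) (L : List α) : ∀ (l : ℕ) (z : k ⊗[R] M),
    fib k c (prd l (L.map S) z) i = prs (fun l a => dlo (D l) (χ a i)) l L * fib k c z i := by
  induction L with
  | nil => intro l z; exact (one_mul _).symm
  | cons a L ih =>
    intro l z
    cases L with
    | nil => exact (one_mul _).symm
    | cons b L =>
      rw [prs_cons, mul_assoc, ← ih (l + 1) z, ← (h a l).diff (h b l)]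
      rfl

theorem aL_eq {α : Type*} {c : M →ₗ[R] (κ → R)} (hc : Function.Bijective c) (S : α → CT D M)
    (χ : α → κ → Rˣ) (h : ∀ a l, Tw c (χ a) (S a l)) (L : List α) :
    aL (L.map S) = ∑ i, prs (fun l a => dlo (D l) (χ a i)) 0 L :=
  ptr_of_diag (fib k c) (fib_bijective' c hc) _ _ fun z i => prd_diag S χ h i L 0 z

end Fib

section Min

variable {k : Type w} [CommRing k] {ι : Type*} [LinearOrder ι]

/-- the value on a cube of a product of differences which only depend on the minimum -/
def GG (φ : ℕ → WithTop ι → k) : ℕ → WithTop ι → List ι → k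
  | _, _, [] => 1
  | l, t, j :: r => (-1) ^ r.length * ((φ l j - φ l t) * GG φ (l + 1) j r)

theorem min_filter_insert (p : ι → Prop) [DecidablePred p] {i j : ι} {X : Finset ι} (hi : i ∈ X)
    (hp : p i) (h : i < j) : ((insert j X).filter p).min = (X.filter p).min := by
  rw [Finset.filter_insert]
  split_ifs
  · rw [Finset.min_insert]
    exact min_eq_right ((Finset.min_le (Finset.mem_filter.2 ⟨hi, hp⟩)).trans
      (WithTop.coe_le_coe.2 h.le))
  · rfl

theorem ev_cube_min (φ : ℕ → WithTop ι → k) (p : ι → Prop) [DecidablePred p] (L : List ι) :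
    L.Pairwise (· > ·) → (∀ j ∈ L, p j) → ∀ (A : Finset ι) (l : ℕ), (∀ j ∈ L, ∀ a ∈ A, j < a) →
    ev (prs (fun l X => φ l (X.filter p).min) l) (cube L.length A L.toFinset) =
      GG φ l (A.filter p).min L := by
  induction L with
  | nil => intro _ _ A l _; rw [List.length_nil, cube, ev_single, one_smul]; rfl
  | cons j r ih =>
    intro hL hp A l hA
    rw [List.pairwise_cons] at hL
    have hj : j ∉ r.toFinset := fun h => lt_irrefl _ (hL.1 j (List.mem_toFinset.1 h))
    have hnd : r.Nodup := hL.2.imp fun h => h.ne'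
    have hcard : r.toFinset.card = r.length := List.toFinset_card_of_nodup hnd
    rw [List.length_cons, cube, ev_cons, map_sum, List.toFinset_cons, Finset.sum_insert hj,
      Finset.sum_eq_zero, add_zero, Finset.erase_insert hj, map_smul, GG]
    · have h1 : sg j (insert j r.toFinset) = (-1) ^ r.length := by
        rw [sg, Finset.filter_insert, if_neg (lt_irrefl j), Finset.filter_true_of_mem
          fun i hi => hL.1 i (List.mem_toFinset.1 hi), hcard]
      have h2 : ((insert j A).filter p).min = (j : WithTop ι) := by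
        rw [Finset.filter_insert, if_pos (hp j List.mem_cons_self), Finset.min_insert]
        refine min_eq_left (Finset.le_min fun a ha => ?_)
        exact WithTop.coe_le_coe.2 (hA j List.mem_cons_self a (Finset.mem_filter.1 ha).1).le
      have h3 := ih hL.2 (fun i hi => hp i (List.mem_cons_of_mem _ hi)) (insert j A) (l + 1)
        fun i hi a ha => by
          rcases Finset.mem_insert.1 ha with rfl | ha
          · exact hL.1 i hi
          · exact hA i (List.mem_cons_of_mem _ hi) a ha
      obtain ⟨z, hz⟩ := cube_eq_cons r.length (insert j A) r.toFinset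
      rw [h2, hz, ev_cons] at h3
      rw [h1, hz, ev_cons, ← h3]
      have h4 := map_ev (AddMonoidHom.mulLeft (φ l j - φ l (A.filter p).min))
        (fun L => prs (fun l X => φ l (X.filter p).min) (l + 1) (insert j A :: L)) z
      rw [AddMonoidHom.coe_mulLeft] at h4
      rw [h4, zsmul_eq_mul]
      simp only [prs_cons, h2, Int.cast_pow, Int.cast_neg, Int.cast_one]
    · intro i hi
      have hij : i < j := hL.1 i (List.mem_toFinset.1 hi)
      rw [map_smul, ev_cube_zero j r.length _ _ _ ?_ ?_ fun u X w hX => ?_, smul_zero]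
      · rw [Finset.card_erase_of_mem (Finset.mem_insert_of_mem hi),
          Finset.card_insert_of_notMem hj, hcard]
        rfl
      · exact Finset.mem_erase.2 ⟨hij.ne', Finset.mem_insert_self _ _⟩
      · refine prs_zero _ (fun l => ?_) w (A :: u) l
        rw [min_filter_insert p (hX (Finset.mem_insert_self i A))
          (hp i (List.mem_cons_of_mem _ (List.mem_toFinset.1 hi))) hij]

theorem ev_cube_min_zero (φ : ℕ → WithTop ι → k) (p : ι → Prop) [DecidablePred p] {j : ι}
    (hj : ¬ p j) {n : ℕ} {B : Finset ι} (hB : B.card = n) (hjB : j ∈ B) (A : Finset ι) (l : ℕ) :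
    ev (prs (fun l X => φ l (X.filter p).min) l) (cube n A B) = 0 :=
  ev_cube_zero j n A B _ hB hjB fun u X w _ => prs_zero _ (fun l => by
    rw [Finset.filter_insert, if_neg hj]) w u l

end Min

section Free

variable {R : Type} {k : Type w} [CommRing R] [CommRing k] [Algebra R k]
variable {κ : Type} [Fintype κ] [DecidableEq κ] {m : ℕ} (e : κ ≃ Fin m)

/-- coordinates on the kernel of a morphism -/
def crd' {X Y : QP R} (f : X ⟶ Y) : KM f →ₗ[R] (κ → R) where
  toFun x v := if h : (e v).1 < Y.n then x.1.1 ⟨(e v).1, h⟩ else 0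
  map_add' x y := by
    funext v
    rw [Pi.add_apply]
    split_ifs
    · rfl
    · rw [add_zero]
  map_smul' r x := by
    funext v
    rw [Pi.smul_apply]
    split_ifs
    · rfl
    · rw [smul_zero]

omit [Fintype κ] [DecidableEq κ] in
theorem crd'_eq {X : QP R} (f : X ⟶ QP.free R m) : crd' e f = crd e f :=
  LinearMap.ext fun _ => funext fun v => dif_pos (e v).2

/-- a choice of sections and connections for which the connection of the quotient `0` of the free
module is the standard one -/
theorem exists_qdata (D : ℕ → Derivation ℤ R k) :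
    ∃ d : QData D, ∀ l, Tw (crd e (topM R m)) 1 (d.conn (topM R m) l) := by
  have h := fun l => exists_std (D l) (crd e (topM R m)) (crd_bijective e)
  choose v hv using h
  obtain ⟨d, hd⟩ := QData.exists_of D (topM R m) v
  exact ⟨d, fun l => by rw [hd]; exact hv l⟩

/-- the group of invertible matrices -/
abbrev GLm (κ R : Type) [Fintype κ] [DecidableEq κ] [CommRing R] : Type := (Matrix κ κ R)ˣ

variable (R) in
/-- the data of the functor `Susp (GL R) ⥤ QP R` -/
noncomputable def gData : Susp.Data (GLm κ R) (QP R) where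
  S := QP.zero R
  N := QP.zero R
  P := QP.free R m
  s := QHom.ofBot R (QP.zero R).M (QP.free R m).M
  n := QHom.ofTop R (QP.zero R).M (QP.free R m).M
  ρ g := QHom.ofIso (topAut (glAut e g))
  ρ_one := by
    rw [glAut_one, topAut_refl]
    exact QHom.ofIso_refl
  ρ_mul g h := by
    rw [glAut_mul, topAut_trans]
    exact (QHom.ofIso_comp _ _).symm
  s_ρ g := QHom.ofBot_comp _
  n_ρ g := QHom.ofTop_comp _

variable (R) in
/-- the functor `Susp (GL R) ⥤ QP R` -/
noncomputable def gFun : Susp (GLm κ R) ⥤ QP R := (gData R e).functor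

/-- the matrix is diagonal -/
def Dgm (g : GLm κ R) (χ : κ → Rˣ) : Prop :=
  (g : Matrix κ κ R) = Matrix.diagonal fun v => (χ v : R)

theorem Dgm.mul {g g' : GLm κ R} {χ χ' : κ → Rˣ} (h1 : Dgm g χ) (h2 : Dgm g' χ') :
    Dgm (g * g') (χ * χ') := by
  unfold Dgm at *
  rw [Units.val_mul, h1, h2, Matrix.diagonal_mul_diagonal]
  simp

theorem glAut_dg {g : GLm κ R} {χ : κ → Rˣ} (h : Dgm g χ) (x : Fin m → R) (v : κ) :
    glAut e g x (e v) = χ v * x (e v) := by
  rw [glAut_apply, Equiv.symm_apply_apply, h, Finset.sum_eq_single v]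
  · rw [Matrix.diagonal_apply_eq]
  · intro j _ hj
    rw [Matrix.diagonal_apply_ne _ hj.symm, zero_mul]
  · intro h
    exact absurd (Finset.mem_univ v) h

variable {D : ℕ → Derivation ℤ R k} {d : QData D}

theorem north_top {X Y : Susp (GLm κ R)} (f : X ⟶ Y) (hX : X = .north) (hY : Y = .mid) :
    Function.Bijective (crd' e ((gFun R e).map f)) ∧
      ((∀ l, Tw (crd e (topM R m)) 1 (d.conn (topM R m) l)) →
        ∀ l, Tw (crd' e ((gFun R e).map f)) 1 (d.conn ((gFun R e).map f) l)) := by
  subst hX hY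
  obtain rfl : f = Susp.toN _ := match f with | .toN => rfl
  have h : crd' e ((gFun R e).map (Susp.toN _)) = crd e (topM R m) := crd'_eq e (topM R m)
  rw [h]
  exact ⟨crd_bijective e, fun h => h⟩

theorem south_bot {X Y : Susp (GLm κ R)} (f : X ⟶ Y) (hX : X = .south) (hY : Y = .mid) :
    Subsingleton (KM ((gFun R e).map f)) := by
  subst hX hY
  obtain rfl : f = Susp.toS _ := match f with | .toS => rfl
  refine ⟨fun x y => Subtype.ext ?_⟩
  have hx : x.1 = 0 := (Submodule.mem_bot R).1 x.2.1
  have hy : y.1 = 0 := (Submodule.mem_bot R).1 y.2.1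
  exact hx.trans hy.symm

theorem crd'_π {X Y Z : Susp (GLm κ R)} (f : X ⟶ Y) (g : Y ⟶ Z) (h : X ⟶ Z) (hY : Y = .mid)
    (hZ : Z = .mid) (he : (gFun R e).map f ≫ (gFun R e).map g = (gFun R e).map h)
    {χ : κ → Rˣ} (hg : Dgm (Susp.val g) χ) (y : KM ((gFun R e).map h)) (v : κ) :
    crd' e ((gFun R e).map f) (QKer.π (f := toQ ((gFun R e).map f)) (g := toQ ((gFun R e).map g))
      (h := toQ ((gFun R e).map h)) he y) v = χ v * crd' e ((gFun R e).map h) y v := by
  subst hY hZ
  obtain ⟨γ, rfl⟩ : ∃ γ, g = Susp.el γ := match g with | .el γ => ⟨γ, rfl⟩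
  have h1 : crd' e ((gFun R e).map h) y v = y.1.1 (e v) := dif_pos (e v).2
  rw [h1]
  exact (dif_pos (e v).2).trans (glAut_dg e hg y.1.1 v)

theorem eq_north {X Y : Susp (GLm κ R)} (f : X ⟶ Y) (hX : X = .north) (hY : Y ≠ .mid) :
    Y = .north := by
  subst hX
  match Y, f with
  | _, .idN => rfl
  | _, .toN => exact absurd rfl hY

theorem eq_mid {X Y : Susp (GLm κ R)} (f : X ⟶ Y) (hX : X = .mid) : Y = .mid := by
  subst hX
  match Y, f with
  | _, .el _ => rfl

variable {ι : Type} [LinearOrder ι] (F : ι ⥤ Susp (GLm κ R))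

/-- the characters, with the trivial character at infinity -/
def chT (χ : ι → κ → Rˣ) : WithTop ι → κ → Rˣ := WithTop.recTopCoe 1 χ

open Classical in
theorem tw_TS₀ (hd : ∀ l, Tw (crd e (topM R m)) 1 (d.conn (topM R m) l)) {a b : ι} (h : a ≤ b)
    (ha : F.obj a = .north) (hb : F.obj b = .mid) (χ : ι → κ → Rˣ)
    (hχ : ∀ j (hj : j ≤ b), F.obj j = .mid → Dgm (Susp.val (F.map (homOfLE hj))) (χ j))
    (X : Finset ι) (hX : ∀ j ∈ X, a < j → j < b → F.obj j = .mid) (l : ℕ) :
    Tw (crd' e (up (F ⋙ gFun R e) h))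
      (chT χ (X.filter fun j => a < j ∧ j < b ∧ F.obj j = .mid).min)
      (TS d (F ⋙ gFun R e) h X l) := by
  rcases (X.filter fun j => a < j ∧ j < b ∧ F.obj j = .mid).eq_empty_or_nonempty with h0 | h0
  · rw [h0, TS_empty d _ h fun j h1 h2 hj => ?_]
    · exact (north_top e (F.map (homOfLE h)) ha hb).2 hd l
    · have : j ∈ X.filter fun j => a < j ∧ j < b ∧ F.obj j = .mid :=
        Finset.mem_filter.2 ⟨hj, h1, h2, hX j hj h1 h2⟩
      rw [h0] at this
      exact Finset.notMem_empty j this
  · rw [← Finset.coe_min' h0]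
    obtain ⟨hj, h1, h2, h3⟩ := Finset.mem_filter.1 (Finset.min'_mem _ h0)
    have h4 := (north_top e (d := d) (F.map (homOfLE h1.le)) ha h3).2 hd l
    have h5 := TS_empty d (F ⋙ gFun R e) h1.le (A := X) fun i g1 g2 hi =>
      absurd (Finset.min'_le _ i (Finset.mem_filter.2 ⟨hi, g1, g2.trans h2,
        hX i hi g1 (g2.trans h2)⟩)) (not_le.2 g2)
    have h6 := (cpt_TS d (F ⋙ gFun R e) h1 h2 hj).quo l
    rw [h5] at h6
    exact Tw.of_rel (crd'_π e _ _ _ h3 hb _ (hχ _ h2.le h3)) h6 h4

open Classical in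
theorem tw_TS (hd : ∀ l, Tw (crd e (topM R m)) 1 (d.conn (topM R m) l)) {a b : ι} (h : a ≤ b)
    (ha : F.obj a = .north) (hb : F.obj b = .mid) (χ : ι → κ → Rˣ)
    (hχ : ∀ j (hj : j ≤ b), F.obj j = .mid → Dgm (Susp.val (F.map (homOfLE hj))) (χ j))
    (X : Finset ι) (l : ℕ) :
    Tw (crd' e (up (F ⋙ gFun R e) h))
      (chT χ (X.filter fun j => a < j ∧ j < b ∧ F.obj j = .mid).min)
      (TS d (F ⋙ gFun R e) h X l) := by
  rcases (X.filter fun j => a < j ∧ j < b ∧ F.obj j ≠ .mid).eq_empty_or_nonempty with h0 | h0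
  · refine tw_TS₀ e F hd h ha hb χ hχ X (fun j hj h1 h2 => ?_) l
    by_contra h3
    have : j ∈ X.filter fun j => a < j ∧ j < b ∧ F.obj j ≠ .mid :=
      Finset.mem_filter.2 ⟨hj, h1, h2, h3⟩
    rw [h0] at this
    exact Finset.notMem_empty j this
  · obtain ⟨hj, h1, h2, h3⟩ := Finset.mem_filter.1 (Finset.max'_mem _ h0)
    set j := Finset.max' _ h0 with hjd
    have h4 : F.obj j = .north := eq_north (F.map (homOfLE h1.le)) ha h3
    have h5 := tw_TS₀ e F hd h2.le h4 hb χ hχ X (fun i hi g1 g2 => by
      by_contra g3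
      exact absurd (Finset.le_max' _ i (Finset.mem_filter.2 ⟨hi, h1.trans g1, g2, g3⟩))
        (not_le.2 g1)) l
    have h6 : (X.filter fun i => j < i ∧ i < b ∧ F.obj i = .mid) =
        X.filter fun i => a < i ∧ i < b ∧ F.obj i = .mid := by
      refine Finset.filter_congr fun i _ => ⟨fun g => ⟨h1.trans g.1, g.2⟩, fun g => ⟨?_, g.2⟩⟩
      by_contra g1
      exact h3 (eq_mid (F.map (homOfLE (not_lt.1 g1))) g.2.2)
    rw [h6] at h5
    have b1 := (north_top e (d := d) (F.map (homOfLE h2.le)) h4 hb).1
    have b2 := (north_top e (d := d) (F.map (homOfLE h)) ha hb).1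
    refine Tw.of_rel' (fun x i => rfl) (fun y => ?_) ((cpt_TS d (F ⋙ gFun R e) h1 h2 hj).sub l) h5
    obtain ⟨x, hx⟩ := b1.2 (crd' e _ y)
    exact ⟨x, b2.1 hx⟩

open Classical in
/-- the value of the cochain on a chain which starts at the north pole -/
theorem cub_north (hd : ∀ l, Tw (crd e (topM R m)) 1 (d.conn (topM R m) l)) {a b : ι} (h : a ≤ b)
    (ha : F.obj a = .north) (hb : F.obj b = .mid) (χ : ι → κ → Rˣ)
    (hχ : ∀ j (hj : j ≤ b), F.obj j = .mid → Dgm (Susp.val (F.map (homOfLE hj))) (χ j))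
    (n : ℕ) (B : Finset ι) : cub d (F ⋙ gFun R e) h n B = ∑ v, ev (prs (fun l X =>
      dlo (D l) (chT χ (X.filter fun j => a < j ∧ j < b ∧ F.obj j = .mid).min v)) 0)
        (cube n ∅ B) := by
  have h1 := aL_eq (north_top e (d := d) (F.map (homOfLE h)) ha hb).1 (TS d (F ⋙ gFun R e) h) _
    (tw_TS e F hd h ha hb χ hχ)
  rw [cub, funext h1]
  generalize cube n ∅ B = z
  induction z using Finsupp.induction_linear with
  | zero => simp
  | add x y hx hy => simp only [map_add, hx, hy, Finset.sum_add_distrib]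
  | single L c => simp only [ev_single, Finset.smul_sum]

theorem cub_south {a b : ι} (h : a ≤ b) (ha : F.obj a = .south) (hb : F.obj b = .mid)
    (n : ℕ) (B : Finset ι) : cub d (F ⋙ gFun R e) h n B = 0 := by
  have : Subsingleton (KM (up (F ⋙ gFun R e) h)) := south_bot e (F.map (homOfLE h)) ha hb
  rw [cub, funext fun L => aL_of_subsingleton (List.map (TS d (F ⋙ gFun R e) h) L), ev_zero]

end Free

end Vale.Agent.N178
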