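import Vale.Agent.P271.H879.RegDom
import Vale.Agent.P022D.L2b.Ps

/-!
# The rings `V⟦X_0, …, X_{r+2}⟧ / (X_0 X_1 - ∑_{i<p} (1 - X_2)^{p i})`
-/

open MvPowerSeries IsLocalRing
open Vale.Agent.P022D.L2b (mem_max_iff pow_le_JI decomp isAdicCompleteV)

namespace Vale.Agent.N178

section General

theorem max_eq {σ O : Type} [Fintype σ] [CommRing O] [IsLocalRing O] {π : O}
    (hπ : maximalIdeal O = Ideal.span {π}) : maximalIdeal (MvPowerSeries σ O) =
      Ideal.span (insert (C π) (Set.range X)) := by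
  apply le_antisymm
  · intro f hf
    rw [mem_max_iff, hπ] at hf
    obtain ⟨a, ha⟩ := Ideal.mem_span_singleton'.1 hf
    obtain ⟨g, hg⟩ := decomp f
    rw [hg, ← ha, map_mul]
    refine Ideal.add_mem _ (Ideal.mul_mem_left _ _ (Ideal.subset_span (Set.mem_insert _ _)))
      (Ideal.sum_mem _ fun s _ => Ideal.mul_mem_right _ _ (Ideal.subset_span ?_))
    exact Set.mem_insert_of_mem _ ⟨s, rfl⟩
  · rw [Ideal.span_le]
    rintro _ (rfl | ⟨i, rfl⟩)
    · rw [SetLike.mem_coe, mem_max_iff, constantCoeff_C, hπ]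
      exact Ideal.mem_span_singleton_self π
    · rw [SetLike.mem_coe, mem_max_iff, constantCoeff_X]
      exact Ideal.zero_mem _

theorem le_dim {A : Type} [CommRing A] (n : ℕ) [Nontrivial A] :
    ringKrullDim A + n ≤ ringKrullDim (MvPowerSeries (Fin n) A) := by
  induction n with
  | zero =>
    rw [ringKrullDim_eq_of_ringEquiv (MvPowerSeries.isEmptyEquiv (Fin 0) A).toRingEquiv]
    simp
  | succ n ih =>
    rw [ringKrullDim_eq_of_ringEquiv (MvPowerSeries.finSuccEquiv A n).toRingEquiv]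
    refine le_trans ?_ ringKrullDim_succ_le_ringKrullDim_powerseries
    push_cast
    rw [← add_assoc]
    exact add_le_add_left ih 1

theorem reg_ps (n : ℕ) {O : Type} [CommRing O] [IsDomain O] [IsDiscreteValuationRing O] {π : O}
    (hπ : maximalIdeal O = Ideal.span {π}) : IsRegularLocalRing (MvPowerSeries (Fin n) O) ∧
      ringKrullDim (MvPowerSeries (Fin n) O) = ((n + 1 : ℕ) : WithBot ℕ∞) := by
  have h1 : (maximalIdeal (MvPowerSeries (Fin n) O)).spanFinrank ≤ n + 1 := by
    rw [max_eq hπ]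
    refine (Submodule.spanFinrank_span_le_ncard_of_finite
      ((Set.finite_range _).insert _)).trans ((Set.ncard_insert_le _ _).trans ?_)
    rw [← Set.image_univ]
    refine Nat.add_le_add_right ((Set.ncard_image_le Set.finite_univ).trans ?_) 1
    rw [Set.ncard_univ, Nat.card_eq_fintype_card, Fintype.card_fin]
  have h3 : ((maximalIdeal (MvPowerSeries (Fin n) O)).spanFinrank : WithBot ℕ∞) ≤
      ((n + 1 : ℕ) : WithBot ℕ∞) := by exact_mod_cast h1
  have hle : ((n + 1 : ℕ) : WithBot ℕ∞) ≤ ringKrullDim (MvPowerSeries (Fin n) O) := by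
    refine le_trans ?_ (le_dim n)
    rw [IsDiscreteValuationRing.ringKrullDim_eq_one, add_comm]
    push_cast
    exact le_rfl
  exact ⟨IsRegularLocalRing.of_spanFinrank_maximalIdeal_le _ (h3.trans hle),
    le_antisymm ((ringKrullDim_le_spanFinrank_maximalIdeal _).trans h3) hle⟩

theorem complete_quot {S : Type} [CommRing S] [IsLocalRing S] [IsNoetherianRing S]
    [IsAdicComplete (maximalIdeal S) S] (Q : Ideal S) [IsLocalRing (S ⧸ Q)] :
    IsAdicComplete (maximalIdeal (S ⧸ Q)) (S ⧸ Q) := by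
  have h1 : IsPrecomplete (maximalIdeal S) (S ⧸ Q) := by
    rw [← AdicCompletion.of_surjective_iff]
    intro z
    obtain ⟨y, rfl⟩ := AdicCompletion.map_surjective (maximalIdeal S) Q.mkQ_surjective z
    obtain ⟨w, rfl⟩ := AdicCompletion.of_surjective (maximalIdeal S) S y
    exact ⟨Q.mkQ w, (AdicCompletion.map_of ..).symm⟩
  have h2 : IsHausdorff (maximalIdeal S) (S ⧸ Q) := inferInstance
  have h3 : IsAdicComplete (maximalIdeal S) (S ⧸ Q) := { h1, h2 with }
  rw [← map_maximalIdeal_of_surjective (algebraMap S (S ⧸ Q)) Ideal.Quotient.mk_surjective]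
  exact (IsAdicComplete.map_algebraMap_iff _ _).2 h3

/-- descent of a derivation to quotients -/
theorem exists_der {V R : Type} [CommRing V] [CommRing R] [Algebra V R] {f : R} {K : Ideal R}
    (hf : Ideal.span {f} ≤ K) (δ : Derivation V R R) (hδ : δ f ∈ K) :
    ∃ D : (R ⧸ Ideal.span {f}) →+ (R ⧸ K), (∀ a b, D (a * b) =
      Ideal.Quotient.factor hf a * D b + Ideal.Quotient.factor hf b * D a) ∧
      ∀ g, D (Ideal.Quotient.mk _ g) = Ideal.Quotient.mk K (δ g) := by
  let φ : (R ⧸ Ideal.span {f}) →+ (R ⧸ K) := QuotientAddGroup.lift (Ideal.span {f}).toAddSubgroup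
    ((Ideal.Quotient.mk K).toAddMonoidHom.comp δ.toLinearMap.toAddMonoidHom) fun g hg => by
      obtain ⟨a, rfl⟩ := Ideal.mem_span_singleton'.1 hg
      change Ideal.Quotient.mk K (δ (a * f)) = 0
      rw [Ideal.Quotient.eq_zero_iff_mem, Derivation.leibniz]
      exact K.add_mem (K.mul_mem_left _ hδ)
        (K.mul_mem_right _ (hf (Ideal.mem_span_singleton_self f)))
  have hφ : ∀ g, φ (Ideal.Quotient.mk _ g) = Ideal.Quotient.mk K (δ g) := fun g => rfl
  refine ⟨φ, fun a b => ?_, hφ⟩
  obtain ⟨a, rfl⟩ := Ideal.Quotient.mk_surjective a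
  obtain ⟨b, rfl⟩ := Ideal.Quotient.mk_surjective b
  change φ (Ideal.Quotient.mk _ (a * b)) = Ideal.Quotient.mk K a * φ (Ideal.Quotient.mk _ b) +
    Ideal.Quotient.mk K b * φ (Ideal.Quotient.mk _ a)
  rw [hφ, hφ, hφ, Derivation.leibniz, map_add, smul_eq_mul, smul_eq_mul, map_mul, map_mul]

theorem geom_mul {R : Type} [CommRing R] (j : R) (p m : ℕ) :
    (∑ i ∈ Finset.range m, j ^ (p * i)) * ∑ i ∈ Finset.range p, j ^ i =
      ∑ i ∈ Finset.range (p * m), j ^ i := by
  induction m with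
  | zero => simp
  | succ m ih =>
    rw [Finset.sum_range_succ, add_mul, ih, mul_add, mul_one, Finset.sum_range_add, Finset.mul_sum]
    simp only [pow_add]

end General

section Ring

variable (p r : ℕ) (V : Type) [CommRing V]

/-- the relation -/
noncomputable def rel : MvPowerSeries (Fin (r + 3)) V :=
  X 0 * X 1 - ∑ i ∈ Finset.range p, (1 - X 2) ^ (p * i)

/-- the ring -/
abbrev RA : Type := MvPowerSeries (Fin (r + 3)) V ⧸ Ideal.span {rel p r V}

/-- the ideal generated by `p`, `X_2 ^ p` and the other variables -/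
def KI : Ideal (MvPowerSeries (Fin (r + 3)) V) where
  carrier := {g | ∀ m < p, coeff (Finsupp.single 2 m) g ∈ Ideal.span {(p : V)}}
  zero_mem' := fun m _ => by rw [map_zero]; exact Ideal.zero_mem _
  add_mem' := fun {a b} ha hb m hm => by rw [map_add]; exact Ideal.add_mem _ (ha m hm) (hb m hm)
  smul_mem' := fun c g hg m hm => by
    rw [smul_eq_mul, coeff_mul, Finsupp.antidiagonal_single, Finset.sum_map]
    refine Ideal.sum_mem _ fun ab hab => Ideal.mul_mem_left _ _ (hg ab.2 ?_)
    rw [Finset.HasAntidiagonal.mem_antidiagonal] at hab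
    omega

/-- the geometric sum -/
noncomputable def gS : MvPowerSeries (Fin (r + 3)) V := ∑ i ∈ Finset.range p, (1 - X 2) ^ i

/-- the elements `x`, `c`, `j` and the further units -/
noncomputable def el (i : Fin (r + 3)) : MvPowerSeries (Fin (r + 3)) V :=
  if i = 0 then X 0 else if i = 1 then X 1 * gS p r V else if i = 2 then 1 - X 2 else 1 + X i

/-- the diagonal of the Jacobi matrix -/
noncomputable def dg (i : Fin (r + 3)) : MvPowerSeries (Fin (r + 3)) V :=
  if i = 1 then gS p r V else if i = 2 then -1 else 1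

variable {p r V}

theorem n01 : (0 : Fin (r + 3)) ≠ 1 := Fin.zero_ne_one
theorem n02 : (0 : Fin (r + 3)) ≠ 2 := fun h =>
  absurd (show (0 : ℕ) = 2 from congrArg Fin.val h) (by decide)
theorem n12 : (1 : Fin (r + 3)) ≠ 2 := fun h =>
  absurd (show (1 : ℕ) = 2 from congrArg Fin.val h) (by decide)

theorem cc_rel : constantCoeff (rel p r V) = -(p : V) := by
  simp [rel, map_sum]

theorem X_mem {i : Fin (r + 3)} (hi : i ≠ 2) : X i ∈ KI p r V := fun m _ => by
  rw [coeff_X, if_neg]
  · exact Ideal.zero_mem _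
  · intro h
    have := DFunLike.congr_fun h i
    rw [Finsupp.single_eq_of_ne hi, Finsupp.single_eq_same] at this
    exact zero_ne_one this

theorem p_mem : (p : MvPowerSeries (Fin (r + 3)) V) ∈ KI p r V := fun m _ => by
  rw [← map_natCast (C : V →+* MvPowerSeries (Fin (r + 3)) V), coeff_C]
  split_ifs
  · exact Ideal.mem_span_singleton_self _
  · exact Ideal.zero_mem _

theorem Xp_mem : (X 2 : MvPowerSeries (Fin (r + 3)) V) ^ p ∈ KI p r V := fun m hm => by
  rw [coeff_X_pow, if_neg]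
  · exact Ideal.zero_mem _
  · intro h
    exact hm.ne (Finsupp.single_injective _ h)

theorem d_rel_zero : pderiv V 0 (rel p r V) = X 1 := by
  simp [rel, map_sum, pderiv_X_of_ne n01.symm, pderiv_X_of_ne n02.symm]

theorem d_rel_one : pderiv V 1 (rel p r V) = X 0 := by
  simp [rel, map_sum, pderiv_X_of_ne n01, pderiv_X_of_ne n12.symm]

theorem d_rel_mem (l : Fin (r + 3)) : pderiv V l (rel p r V) ∈ KI p r V := by
  rw [rel, map_sub, Derivation.leibniz, map_sum]
  refine Ideal.sub_mem _ (Ideal.add_mem _ (Ideal.mul_mem_right _ _ (X_mem n02))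
    (Ideal.mul_mem_right _ _ (X_mem n12))) (Ideal.sum_mem _ fun i _ => ?_)
  rw [pderiv_pow, Nat.cast_mul, mul_assoc, mul_assoc]
  exact Ideal.mul_mem_right _ _ p_mem

theorem d_el (i l : Fin (r + 3)) :
    pderiv V l (el p r V i) - (if i = l then dg p r V i else 0) ∈ KI p r V := by
  have h0 : ∀ i : Fin (r + 3), pderiv V l (X i) = if i = l then 1 else 0 := fun i => by
    split_ifs with h
    · rw [h, pderiv_X_self]
    · exact pderiv_X_of_ne h
  unfold el dg
  by_cases h1 : i = 0
  · subst h1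
    rw [if_pos rfl, if_neg n01, if_neg n02, h0, sub_self]
    exact Ideal.zero_mem _
  by_cases h2 : i = 1
  · subst h2
    rw [if_neg h1, if_pos rfl, if_pos rfl, Derivation.leibniz, h0, smul_eq_mul, smul_eq_mul,
      mul_ite, mul_one, mul_zero, add_sub_cancel_right]
    exact Ideal.mul_mem_right _ _ (X_mem n12)
  by_cases h3 : i = 2
  · subst h3
    rw [if_neg h1, if_neg h2, if_pos rfl, if_neg h2, if_pos rfl, map_sub,
      Derivation.map_one_eq_zero, h0]
    split_ifs <;> simp
  · rw [if_neg h1, if_neg h2, if_neg h3, if_neg h2, if_neg h3, map_add,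
      Derivation.map_one_eq_zero, h0, zero_add, sub_self]
    exact Ideal.zero_mem _

theorem el_zero : el p r V 0 = X 0 := if_pos rfl
theorem el_one : el p r V 1 = X 1 * gS p r V := (if_neg n01.symm).trans (if_pos rfl)
theorem el_two : el p r V 2 = 1 - X 2 :=
  (if_neg n02.symm).trans ((if_neg n12.symm).trans (if_pos rfl))

theorem el_rel : Ideal.Quotient.mk (Ideal.span {rel p r V}) (el p r V 0) *
    Ideal.Quotient.mk _ (el p r V 1) =
      ∑ i ∈ Finset.range (p * p), Ideal.Quotient.mk _ (el p r V 2) ^ i := by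
  have h : Ideal.Quotient.mk (Ideal.span {rel p r V}) (X 0 * X 1) = Ideal.Quotient.mk _
      (∑ i ∈ Finset.range p, (1 - X 2) ^ (p * i)) :=
    Ideal.Quotient.eq.2 (Ideal.mem_span_singleton_self _)
  rw [el_zero, el_one, el_two, ← geom_mul, ← map_mul, ← mul_assoc, map_mul, h, gS]
  simp only [map_sum, map_pow]

variable [hp : Fact p.Prime]

theorem pow_eq : ∃ g : MvPowerSeries (Fin (r + 3)) V,
    (1 - X 2 : MvPowerSeries (Fin (r + 3)) V) ^ p - 1 = (-1) ^ p * X 2 ^ p +
      (p : MvPowerSeries (Fin (r + 3)) V) * (X 2 * g) := by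
  obtain ⟨g, hg⟩ := exists_add_pow_prime_eq hp.out (1 : MvPowerSeries (Fin (r + 3)) V) (-X 2)
  refine ⟨-g, ?_⟩
  rw [sub_eq_add_neg 1, hg, neg_pow]
  ring

theorem rel_add_mem {K : Ideal (MvPowerSeries (Fin (r + 3)) V)} (h1 : X 0 * X 1 ∈ K)
    (h2 : X 2 ^ p ∈ K) (h3 : (p : MvPowerSeries (Fin (r + 3)) V) * X 2 ∈ K) :
    rel p r V + (p : MvPowerSeries (Fin (r + 3)) V) ∈ K := by
  have h4 : rel p r V + (p : MvPowerSeries (Fin (r + 3)) V) = X 0 * X 1 - ∑ i ∈ Finset.range p,
      (((1 - X 2 : MvPowerSeries (Fin (r + 3)) V) ^ p) ^ i - 1 ^ i) := by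
    simp only [rel, Finset.sum_sub_distrib, one_pow, Finset.sum_const, Finset.card_range,
      nsmul_eq_mul, mul_one, pow_mul]
    ring
  rw [h4]
  refine K.sub_mem h1 (K.sum_mem fun i _ => Ideal.mem_of_dvd _ (sub_dvd_pow_sub_pow _ _ i) ?_)
  obtain ⟨g, hg⟩ := pow_eq (p := p) (r := r) (V := V)
  rw [hg, ← mul_assoc]
  exact K.add_mem (K.mul_mem_left _ h2) (K.mul_mem_right _ h3)

theorem rel_le : Ideal.span {rel p r V} ≤ KI p r V := by
  rw [Ideal.span_singleton_le_iff_mem, ← add_sub_cancel_right (rel p r V) p]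
  exact Ideal.sub_mem _ (rel_add_mem (Ideal.mul_mem_right _ _ (X_mem n02)) Xp_mem
    (Ideal.mul_mem_right _ _ p_mem)) p_mem

theorem gS_not_mem (hV : ¬ IsUnit (p : V)) : gS p r V ∉ KI p r V := by
  intro h
  have h1 := h (p - 1) (Nat.sub_lt hp.out.pos one_pos)
  obtain ⟨g, hg⟩ := pow_eq (p := p) (r := r) (V := V)
  have h2 : X 2 * gS p r V = -((-1) ^ p * X 2 ^ p +
      (p : MvPowerSeries (Fin (r + 3)) V) * (X 2 * g)) := by
    rw [← hg, gS, neg_sub, ← mul_neg_geom_sum, sub_sub_cancel]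
  have h3 := congrArg (coeff (Finsupp.single (2 : Fin (r + 3)) 1 + Finsupp.single 2 (p - 1))) h2
  rw [show (X 2 : MvPowerSeries (Fin (r + 3)) V) * gS p r V = monomial (Finsupp.single 2 1) 1 *
    gS p r V from rfl, coeff_add_monomial_mul, one_mul, ← Finsupp.single_add,
    Nat.add_sub_cancel' hp.out.one_lt.le, map_neg, map_add,
    ← map_natCast (C : V →+* MvPowerSeries (Fin (r + 3)) V), coeff_C_mul,
    show ((-1) ^ p : MvPowerSeries (Fin (r + 3)) V) = C ((-1) ^ p) by simp, coeff_C_mul,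
    coeff_X_pow, if_pos rfl, mul_one] at h3
  rw [h3, Ideal.neg_mem_iff, Ideal.add_mem_iff_left _
    (Ideal.mul_mem_right _ _ (Ideal.mem_span_singleton_self _))] at h1
  exact hV (isUnit_of_dvd_unit (Ideal.mem_span_singleton.1 h1) (isUnit_one.neg.pow p))

variable [IsDomain V] [IsDiscreteValuationRing V] (hV : maximalIdeal V = Ideal.span {(p : V)})

include hV

omit hp in
theorem p_max : (p : V) ∈ maximalIdeal V := hV ▸ Ideal.mem_span_singleton_self _

omit hp in
theorem p_ne : (p : V) ≠ 0 := fun h =>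
  IsDiscreteValuationRing.not_a_field V (by rw [hV, h, Ideal.span_singleton_zero])

omit hp in
theorem rel_max : rel p r V ∈ maximalIdeal (MvPowerSeries (Fin (r + 3)) V) := by
  rw [mem_max_iff, cc_rel]
  exact neg_mem (p_max hV)

omit hp in
theorem reg_RA : IsRegularLocalRing (RA p r V) ∧ ringKrullDim (RA p r V) = (r + 3 : ℕ) := by
  obtain ⟨h1, h2⟩ := reg_ps (r + 3) hV
  obtain ⟨h3, h4⟩ := Vale.Agent.P271.H879.Reg.regular_quotient (rel_max (r := r) hV) fun h => by
    have h5 := pow_le_JI 2 h 0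
    rw [map_zero, Nat.sub_zero, coeff_zero_eq_constantCoeff_apply, cc_rel, Ideal.neg_mem_iff, hV,
      Ideal.span_singleton_pow] at h5
    obtain ⟨a, ha⟩ := Ideal.mem_span_singleton'.1 h5
    have h6 : (p : V) * (a * p - 1) = 0 := by linear_combination ha
    have h7 := sub_eq_zero.1 ((mul_eq_zero.1 h6).resolve_left (p_ne hV))
    exact (mem_maximalIdeal _).1 (p_max hV) (IsUnit.of_mul_eq_one_right a h7)
  refine ⟨h3, ?_⟩
  rw [h2, Nat.cast_succ] at h4
  exact le_antisymm (ENat.WithBot.add_le_add_one_right_iff.1 h4.le)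
    (ENat.WithBot.add_le_add_one_right_iff.1 h4.ge)

omit hp in
theorem p_ne_RA : (p : RA p r V) ≠ 0 := by
  intro h
  rw [← map_natCast (Ideal.Quotient.mk (Ideal.span {rel p r V})),
    Ideal.Quotient.eq_zero_iff_mem] at h
  obtain ⟨g, hg⟩ := Ideal.mem_span_singleton'.1 h
  have h1 := congrArg constantCoeff hg
  rw [map_mul, cc_rel, map_natCast] at h1
  have h2 := congrArg (fun u => constantCoeff (pderiv V 1 (pderiv V 0 u))) hg
  simp only [Derivation.leibniz, d_rel_zero, d_rel_one, map_add, smul_eq_mul, map_mul,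
    pderiv_X_self, constantCoeff_X, cc_rel, map_one, Derivation.map_natCast, map_zero] at h2
  have h3 : (p : V) * (p * constantCoeff (pderiv V 1 (pderiv V 0 g)) + 1) = 0 := by
    linear_combination -h1 - (p : V) * h2
  have h4 := (mul_eq_zero.1 h3).resolve_left (p_ne hV)
  exact (mem_maximalIdeal _).1 (p_max hV) (IsUnit.of_mul_eq_one
    (-constantCoeff (pderiv V 1 (pderiv V 0 g))) (by linear_combination -h4))

omit hp in
theorem res_RA [IsLocalRing (RA p r V)] :
    Nonempty (ResidueField (RA p r V) ≃+* ResidueField V) := by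
  let ρ : RA p r V →+* ResidueField V := Ideal.Quotient.lift _ ((residue V).comp constantCoeff)
    fun g hg => by
      obtain ⟨a, rfl⟩ := Ideal.mem_span_singleton'.1 hg
      rw [map_mul, RingHom.comp_apply _ _ (rel p r V), cc_rel,
        (residue_eq_zero_iff _).2 (neg_mem (p_max hV)), mul_zero]
  have hρ : Function.Surjective ρ := fun a => by
    obtain ⟨a, rfl⟩ := residue_surjective a
    exact ⟨Ideal.Quotient.mk _ (C a), congrArg (residue V) (constantCoeff_C a)⟩
  exact ⟨(Ideal.quotEquivOfEq (eq_maximalIdeal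
    (RingHom.ker_isMaximal_of_surjective ρ hρ)).symm).trans
      (RingHom.quotientKerEquivOfSurjective hρ)⟩

theorem p_sq [IsLocalRing (RA p r V)] : (p : RA p r V) ∈ maximalIdeal (RA p r V) ^ 2 := by
  have hX : ∀ i, (X i : MvPowerSeries (Fin (r + 3)) V) ∈ maximalIdeal _ := fun i => by
    rw [mem_max_iff, constantCoeff_X]
    exact Ideal.zero_mem _
  have h1 : rel p r V + (p : MvPowerSeries (Fin (r + 3)) V) ∈ maximalIdeal (MvPowerSeries (Fin (r + 3)) V) ^ 2 := by
    refine rel_add_mem ?_ ?_ ?_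
    · rw [pow_two]
      exact Ideal.mul_mem_mul (hX 0) (hX 1)
    · exact Ideal.pow_le_pow_right hp.out.two_le (Ideal.pow_mem_pow (hX 2) p)
    · rw [pow_two]
      refine Ideal.mul_mem_mul ?_ (hX 2)
      rw [mem_max_iff, map_natCast]
      exact p_max hV
  have h2 := Ideal.mem_map_of_mem (Ideal.Quotient.mk (Ideal.span {rel p r V})) h1
  rwa [Ideal.map_pow, map_maximalIdeal_of_surjective _ Ideal.Quotient.mk_surjective, map_add,
    Ideal.Quotient.eq_zero_iff_mem.2 (Ideal.mem_span_singleton_self _), zero_add,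
    map_natCast] at h2

theorem charP_RA [IsLocalRing (RA p r V)] : CharP (ResidueField (RA p r V)) p := by
  rw [CharP.charP_iff_prime_eq_zero hp.out, ← map_natCast (residue (RA p r V)), residue_eq_zero_iff]
  exact Ideal.pow_le_self two_ne_zero (p_sq hV)

theorem charZero_RA [IsLocalRing (RA p r V)] [IsDomain (RA p r V)] : CharZero (RA p r V) := by
  have h0 := charP_RA (r := r) hV
  rcases CharP.char_is_prime_or_zero (RA p r V) (ringChar (RA p r V)) with h | h
  · have h1 : ((ringChar (RA p r V) : ℕ) : ResidueField (RA p r V)) = 0 := by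
      rw [← map_natCast (residue (RA p r V)), ringChar.Nat.cast_ringChar, map_zero]
    rw [CharP.cast_eq_zero_iff _ p, Nat.prime_dvd_prime_iff_eq hp.out h] at h1
    exact absurd (h1 ▸ ringChar.Nat.cast_ringChar) (p_ne_RA hV)
  · exact (CharP.ringChar_zero_iff_CharZero _).1 h

omit hp in
theorem unit_of_cc {g : MvPowerSeries (Fin (r + 3)) V} {a : V} (h : constantCoeff g = p * a + 1 ∨
    constantCoeff g = p * a - 1) : IsUnit (Ideal.Quotient.mk (Ideal.span {rel p r V}) g) := by
  refine (isUnit_iff_constantCoeff.2 ?_).map _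
  by_contra h1
  have h2 : constantCoeff g ∈ maximalIdeal V := h1
  have h3 : (p : V) * a ∈ maximalIdeal V := Ideal.mul_mem_right _ _ (p_max hV)
  refine (maximalIdeal.isMaximal V).ne_top ((Ideal.eq_top_iff_one _).2 ?_)
  rcases h with h | h
  · rw [h] at h2
    exact (Ideal.add_mem_iff_right _ h3).1 h2
  · rw [h, sub_eq_add_neg] at h2
    exact neg_mem_iff.1 ((Ideal.add_mem_iff_right _ h3).1 h2)

omit hp in
theorem unit_el (i : Fin (r + 3)) (hi : 2 ≤ i.1) :
    IsUnit (Ideal.Quotient.mk (Ideal.span {rel p r V}) (el p r V i)) := by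
  have h0 : i ≠ 0 := fun h => absurd (h ▸ hi : 2 ≤ (0 : Fin (r + 3)).1) (by simp)
  have h1 : i ≠ 1 := fun h => absurd (show 2 ≤ 1 from (h ▸ hi : 2 ≤ (1 : Fin (r + 3)).1))
    (by decide)
  refine unit_of_cc hV (a := 0) (Or.inl ?_)
  rw [el, if_neg h0, if_neg h1]
  split_ifs <;> simp

theorem units_RA : IsUnit (1 + Ideal.Quotient.mk (Ideal.span {rel p r V}) (el p r V 0) *
      (1 - Ideal.Quotient.mk (Ideal.span {rel p r V}) (el p r V 2))) ∧
    IsUnit (Ideal.Quotient.mk (Ideal.span {rel p r V}) (el p r V 0) +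
      ∑ i ∈ Finset.range (p * p - 1), Ideal.Quotient.mk (Ideal.span {rel p r V}) (el p r V 2) ^ i) ∧
    IsUnit (1 + Ideal.Quotient.mk (Ideal.span {rel p r V}) (el p r V 1)) := by
  refine ⟨?_, ?_, ?_⟩
  · have := unit_of_cc (r := r) hV (g := 1 + el p r V 0 * (1 - el p r V 2)) (a := 0)
      (Or.inl (by simp [el_zero]))
    rwa [map_add, map_mul, map_sub, map_one] at this
  · have := unit_of_cc (r := r) hV (g := el p r V 0 + ∑ i ∈ Finset.range (p * p - 1),
      el p r V 2 ^ i) (a := p) (Or.inr (by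
        simp [el_zero, el_two, map_sum, Nat.cast_sub (Nat.mul_pos hp.out.pos hp.out.pos)]))
    simpa only [map_add, map_sum, map_pow] using this
  · have := unit_of_cc (r := r) hV (g := 1 + el p r V 1) (a := 0) (Or.inl (by simp [el_one]))
    rwa [map_add, map_one] at this

/-- the derivations -/
theorem exists_ders : ∃ (k : Type) (_ : CommRing k) (φ : RA p r V →+* k)
    (D : Fin (r + 3) → RA p r V →+ k) (δ : Fin (r + 3) → k),
    (∀ l a b, D l (a * b) = φ a * D l b + φ b * D l a) ∧ (∀ i l, D l (Ideal.Quotient.mk _ (el p r V i)) = if i = l then δ i else 0) ∧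
      δ 1 ≠ 0 ∧ ∀ i, i ≠ 1 → IsUnit (δ i) := by
  have h := fun l => exists_der (rel_le (p := p) (r := r) (V := V)) (pderiv V l) (d_rel_mem l)
  choose D hD' hD using h
  refine ⟨_, _, _, D, fun i => Ideal.Quotient.mk (KI p r V) (dg p r V i), hD', fun i l => ?_, ?_,
    fun i hi => ?_⟩
  · rw [hD, Ideal.Quotient.eq.2 (d_el i l), apply_ite (Ideal.Quotient.mk (KI p r V)), map_zero]
  · change Ideal.Quotient.mk (KI p r V) (dg p r V 1) ≠ 0
    rw [Ne, dg, if_pos rfl, Ideal.Quotient.eq_zero_iff_mem]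
    exact gS_not_mem ((mem_maximalIdeal _).1 (p_max hV))
  · refine IsUnit.map _ ?_
    rw [dg, if_neg hi]
    split_ifs
    · exact isUnit_one.neg
    · exact isUnit_one

end Ring

end Vale.Agent.N178
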