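import Vale.Agent.N178.Om
import Vale.Agent.N178.Ring

/-!
# The criterion, and the examples
-/

open IsLocalRing
open Vale.Agent.P178

namespace Vale.Agent.N178

/-- the criterion for `K_{m+3}` -/
def Crit (m : ℕ) : Prop :=
  ∀ (A B k : Type) [CommRing A] [CommRing B] [CommRing k] [Algebra A k] (f : A →+* B) (N : ℕ)
    (a : Fin (m + 3) → A) (D : Fin (m + 3) → Derivation ℤ A k),
    a 0 * a 1 = ∑ i ∈ Finset.range (N + 1), a 2 ^ i → IsUnit (1 + a 0 * (1 - a 2)) →
    IsUnit (a 0 + ∑ i ∈ Finset.range N, a 2 ^ i) → IsUnit (1 + a 1) →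
    (∀ i, 2 ≤ i.1 → IsUnit (a i)) → IsUnit (f (a 0)) → IsUnit (f (1 - a 2)) →
    Matrix.det (Matrix.of fun i l => D l (a i)) ≠ 0 → ¬ Function.Injective (QK.K.map (m + 3) f)

theorem good_zero {A B : Type} (k : Type) [CommRing A] [CommRing B] [CommRing k] [Algebra A k]
    (f : A →+* B) (N : ℕ) (a : Fin 3 → A)
    (h1 : a 0 * a 1 = ∑ i ∈ Finset.range (N + 1), a 2 ^ i) (h2 : IsUnit (1 + a 0 * (1 - a 2)))
    (h3 : IsUnit (a 0 + ∑ i ∈ Finset.range N, a 2 ^ i)) (h4 : IsUnit (1 + a 1))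
    (h5 : IsUnit (a 2)) (h6 : IsUnit (f (a 0))) (h7 : IsUnit (f (1 - a 2))) : Good f k 2 a := by
  have h := good_three (k := k) f (a 0) (a 1) h5.unit h2.unit h3.unit h4.unit N h1 rfl rfl rfl
    h6 h7
  have e : ![a 0, a 1, (h5.unit : A)] = a := funext fun i => by fin_cases i <;> rfl
  rwa [e] at h

theorem crit_zero : Crit 0 := fun _ _ k _ _ _ _ f N a D h1 h2 h3 h4 h5 h6 h7 h8 =>
  (good_zero k f N a h1 h2 h3 h4 (h5 2 le_rfl) h6 h7).not_injective D h8

theorem Crit.of_add {m : ℕ} (hc : Crit m) {A B k : Type} [CommRing A] [CommRing B] [CommRing k]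
    (φ : A →+* k) (f : A →+* B) (N : ℕ) (a : Fin (m + 3) → A) (D : Fin (m + 3) → A →+ k)
    (hD : ∀ l a b, D l (a * b) = φ a * D l b + φ b * D l a)
    (h1 : a 0 * a 1 = ∑ i ∈ Finset.range (N + 1), a 2 ^ i) (h2 : IsUnit (1 + a 0 * (1 - a 2)))
    (h3 : IsUnit (a 0 + ∑ i ∈ Finset.range N, a 2 ^ i)) (h4 : IsUnit (1 + a 1))
    (h5 : ∀ i, 2 ≤ i.1 → IsUnit (a i)) (h6 : IsUnit (f (a 0))) (h7 : IsUnit (f (1 - a 2)))
    (h8 : Matrix.det (Matrix.of fun i l => D l (a i)) ≠ 0) :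
    ¬ Function.Injective (QK.K.map (m + 3) f) :=
  letI : Algebra A k := φ.toAlgebra
  hc A B k f N a (fun l => Derivation.mk' (D l).toIntLinearMap (hD l)) h1 h2 h3 h4 h5 h6 h7 h8

variable {p r : ℕ} {V : Type} [CommRing V] [hp : Fact p.Prime] [IsDomain V]
  [IsDiscreteValuationRing V] (hV : maximalIdeal V = Ideal.span {(p : V)})

include hV

theorem not_injective_RA {m : ℕ} (hc : Crit m) (hm : m ≤ r) [IsDomain (RA p r V)] :
    ¬ Function.Injective (QK.K.map (m + 3) (algebraMap (RA p r V) (FractionRing (RA p r V)))) := by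
  obtain ⟨k, _, φ, D, δ, hD, hδ, h1, h2⟩ := exists_ders (r := r) hV
  obtain ⟨u1, u2, u3⟩ := units_RA (r := r) hV
  have hle : m + 3 ≤ r + 3 := by omega
  have hk : Nontrivial k := ⟨⟨_, _, h1⟩⟩
  have hF : ∀ x : RA p r V, x ≠ 0 →
      IsUnit (algebraMap (RA p r V) (FractionRing (RA p r V)) x) := fun x hx =>
    ((map_ne_zero_iff _ (IsFractionRing.injective _ _)).2 hx).isUnit
  refine hc.of_add φ _ (p * p - 1)
    (fun i => Ideal.Quotient.mk _ (el p r V (Fin.castLE hle i))) (fun l => D (Fin.castLE hle l))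
    (fun l => hD _) ?_ u1 u2 u3 (fun i hi => unit_el hV _ hi) (hF _ fun h => ?_)
    (hF _ fun h => ?_) ?_
  · rw [Nat.sub_add_cancel (Nat.mul_pos hp.out.pos hp.out.pos)]
    exact el_rel
  · have h3 := hδ 0 0
    rw [show Ideal.Quotient.mk _ (el p r V 0) = 0 from h, map_zero, if_pos rfl] at h3
    exact (h2 0 n01).ne_zero h3.symm
  · have h3 := hδ 2 2
    have h4 := hD 2 1 1
    rw [mul_one, map_one φ, one_mul, left_eq_add] at h4
    rw [← show 1 = Ideal.Quotient.mk _ (el p r V 2) from sub_eq_zero.1 h, h4, if_pos rfl] at h3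
    exact (h2 2 n12.symm).ne_zero h3.symm
  · have h3 : (Matrix.of fun i l : Fin (m + 3) => D (Fin.castLE hle l)
        (Ideal.Quotient.mk _ (el p r V (Fin.castLE hle i)))) =
        Matrix.diagonal fun i => δ (Fin.castLE hle i) := by
      ext i l
      rw [Matrix.of_apply, hδ, Matrix.diagonal_apply]
      simp only [Fin.castLE_inj]
    rw [h3, Matrix.det_diagonal, ← Finset.mul_prod_erase _ _ (Finset.mem_univ 1)]
    refine fun h => h1 ((IsUnit.mul_left_eq_zero (IsUnit.prod_iff.2 fun i hi => h2 _ ?_)).1 h)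
    exact fun h4 => (Finset.mem_erase.1 hi).1 (Fin.ext (show i.1 = 1 from congrArg Fin.val h4))

/-- the examples -/
theorem exists_ring {m : ℕ} (hc : Crit m) (hm : m ≤ r) [IsAdicComplete (maximalIdeal V) V] :
    ∃ (A : Type) (_ : CommRing A) (_ : IsDomain A) (_ : IsRegularLocalRing A),
      IsAdicComplete (maximalIdeal A) A ∧ ringKrullDim A = (r + 3 : ℕ) ∧ CharZero A ∧
      CharP (ResidueField A) p ∧ Nonempty (ResidueField A ≃+* ResidueField V) ∧
      (p : A) ∈ maximalIdeal A ^ 2 ∧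
      ¬ Function.Injective (QK.K.map (m + 3) (algebraMap A (FractionRing A))) := by
  obtain ⟨h1, h2⟩ := reg_RA (r := r) hV
  have h3 := Vale.Agent.P271.H879.Reg.isDomain (RA p r V)
  have h4 := Vale.Agent.P022D.L2b.isAdicCompleteV (σ := Fin (r + 3)) (V := V) inferInstance
  exact ⟨RA p r V, inferInstance, h3, h1, complete_quot _, h2, charZero_RA hV, charP_RA hV,
    res_RA hV, p_sq hV, not_injective_RA hV hc hm⟩

end Vale.Agent.N178
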