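import Vale.Agent.N178.Final

/-!
Gersten's conjecture is false, in every residue characteristic `p` (also `p = 2`) and in every
dimension `d ≥ 3`, for complete rings with the residue field of any given complete discrete
valuation ring `V` with uniformizer `p`. The rings are
`V⟦X_0, …, X_{d-1}⟧ / (X_0 X_1 - ∑_{i<p} (1 - X_2)^{p i})`. The third part is the criterion which
is used: it detects an element of the kernel of `K₃(A) → K₃(B)` by derivations.
Here `K n R = π_{n+1}(B Q P(R), 0)` is Quillen's algebraic K-group.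
-/

namespace Vale.Agent.N178.OldGerstenAll

open Vale.Agent.P178.QK IsLocalRing

theorem old_result :
    (¬ ∀ (A : Type) [CommRing A] [IsDomain A] [IsRegularLocalRing A] (n : ℕ),
      Function.Injective (K.map n (algebraMap A (FractionRing A)))) ∧
    (∀ (p : ℕ) [Fact p.Prime] (V : Type) [CommRing V] [IsDomain V] [IsDiscreteValuationRing V]
      [IsAdicComplete (maximalIdeal V) V], maximalIdeal V = Ideal.span {(p : V)} →
      ∀ d : ℕ, 3 ≤ d →
      ∃ (A : Type) (_ : CommRing A) (_ : IsDomain A) (_ : IsRegularLocalRing A),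
        IsAdicComplete (maximalIdeal A) A ∧ ringKrullDim A = d ∧ CharZero A ∧
        CharP (ResidueField A) p ∧ Nonempty (ResidueField A ≃+* ResidueField V) ∧
        (p : A) ∈ maximalIdeal A ^ 2 ∧
        ¬ Function.Injective (K.map 3 (algebraMap A (FractionRing A)))) ∧
    (∀ (A B k : Type) [CommRing A] [CommRing B] [CommRing k] [Algebra A k] (f : A →+* B) (N : ℕ)
      (a : Fin 3 → A) (D : Fin 3 → Derivation ℤ A k),
      a 0 * a 1 = ∑ i ∈ Finset.range (N + 1), a 2 ^ i → IsUnit (1 + a 0 * (1 - a 2)) →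
      IsUnit (a 0 + ∑ i ∈ Finset.range N, a 2 ^ i) → IsUnit (1 + a 1) → IsUnit (a 2) →
      IsUnit (f (a 0)) → IsUnit (f (1 - a 2)) →
      Matrix.det (Matrix.of fun i l => D l (a i)) ≠ 0 → ¬ Function.Injective (K.map 3 f)) := by
  refine ⟨fun h => ?_, fun p _ V _ _ _ _ hV d hd => ?_,
    fun A B k _ _ _ _ f N a D h1 h2 h3 h4 h5 h6 h7 h8 =>
      (Vale.Agent.N178.good_zero k f N a h1 h2 h3 h4 h5 h6 h7).not_injective D h8⟩
  · obtain ⟨A, _, _, _, -, -, -, -, -, -, hA⟩ := Vale.Agent.N178.exists_ring (p := 2) (r := 0)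
      PadicInt.maximalIdeal_eq_span_p Vale.Agent.N178.crit_zero le_rfl
    exact hA (h A 3)
  · obtain ⟨r, rfl⟩ := Nat.exists_eq_add_of_le' hd
    exact Vale.Agent.N178.exists_ring hV Vale.Agent.N178.crit_zero (Nat.zero_le r)

end Vale.Agent.N178.OldGerstenAll
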