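import Vale.Agent.N178.Ev
import Vale.Agent.P178.H51.Main

/-!
# The cocycle on diagonal simplices, and the kernel of the map of K-groups
-/

open CategoryTheory
open Vale.Agent.P178
open Vale.Agent.P178.H847 (QP crd topM)
open Vale.Agent.P178.H676 (Susp)

namespace Vale.Agent.N178

universe w

/-- a sign -/
def eps : ℕ → ℤ
  | 0 => 1
  | n + 1 => (-1) ^ n * eps n

theorem eps_sq (n : ℕ) : eps n * eps n = 1 := by
  induction n with
  | zero => rfl
  | succ n ih =>
    rw [eps, mul_mul_mul_comm, ih, mul_one, ← pow_add, ← two_mul, pow_mul, neg_one_sq, one_pow]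

theorem GG_ofFn {k : Type w} [CommRing k] {ι : Type*} [LinearOrder ι] (φ : ℕ → WithTop ι → k)
    (n : ℕ) : ∀ (f : Fin n → ι) (l : ℕ) (t : WithTop ι), GG φ l t (List.ofFn f) =
      eps n * ∏ i : Fin n, (φ (l + i) (f i) - φ (l + i)
        ((Fin.cons t fun i => (f i : WithTop ι) : Fin (n + 1) → WithTop ι) i.castSucc)) := by
  induction n with
  | zero => intro f l t; simp [GG, eps]
  | succ n ih =>
    intro f l t
    rw [List.ofFn_succ, GG, ih, List.length_ofFn, Fin.prod_univ_succ, eps]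
    have h : ∀ i : Fin n, (Fin.cons t fun i => (f i : WithTop ι) : Fin (n + 2) → WithTop ι)
        i.succ.castSucc = (Fin.cons (f 0 : WithTop ι) fun i => (f i.succ : WithTop ι) :
          Fin (n + 1) → WithTop ι) i.castSucc := by
      intro i
      rw [← Fin.succ_castSucc, Fin.cons_succ]
      cases n with
      | zero => exact i.elim0
      | succ n => refine Fin.cases rfl (fun j => rfl) i
    simp only [h, Fin.val_succ, Fin.val_zero, add_zero, Fin.castSucc_zero, Fin.cons_zero,
      add_assoc, add_comm 1]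
    push_cast
    ring

section Om

variable {G : Type} [Monoid G]

/-- the first vertex is the north pole, the others are in the middle -/
def NM {n : ℕ} (F : Fin (n + 2) ⥤ Susp G) : Prop :=
  F.obj 0 = .north ∧ ∀ j : Fin (n + 1), F.obj j.succ = .mid

/-- the value on an edge -/
def vl {ι : Type} [Preorder ι] (F : ι ⥤ Susp G) (i j : ι) (h : i ≤ j) : G :=
  Susp.val (F.map (homOfLE h))

theorem vl_mul {ι : Type} [Preorder ι] (F : ι ⥤ Susp G) {i j l : ι} (h : i ≤ j) (h' : j ≤ l)
    (hi : F.obj i = .mid) : vl F i j h * vl F j l h' = vl F i l (h.trans h') := by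
  have h1 : vl F i l (h.trans h') = Susp.val (F.map (homOfLE h) ≫ F.map (homOfLE h')) := by
    rw [← F.map_comp]; rfl
  have key : ∀ {x y z : Susp G} (f : x ⟶ y) (g : y ⟶ z), x = .mid →
      Susp.val f * Susp.val g = Susp.val (f ≫ g) := by
    intro x y z f g hx
    match x, y, z, f, g with
    | _, _, _, .el g, .el h => rfl
  rw [h1]
  exact key _ _ hi

theorem vl_self {ι : Type} [Preorder ι] (F : ι ⥤ Susp G) (i : ι) (h : i ≤ i) : vl F i i h = 1 := by
  have h1 : (homOfLE h : i ⟶ i) = 𝟙 _ := rfl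
  rw [vl, h1, F.map_id]
  exact Susp.val_id _

/-- the successive edges -/
def edge {n : ℕ} (F : Fin (n + 2) ⥤ Susp G) (j : Fin n) : G :=
  vl F j.succ.castSucc j.succ.succ (Fin.castSucc_lt_succ).le

variable {R : Type} {k : Type w} [CommRing R] [CommRing k]
variable {κ : Type} [Fintype κ] [DecidableEq κ]

open Classical in
/-- the trace form on the simplices of the suspension -/
noncomputable def Om {n : ℕ} (a : Fin n → R → k) (F : Fin (n + 2) ⥤ Susp (GLm κ R)) : k :=
  if NM F then ∑ v, ∏ j, a j ((edge F j).val v v) else 0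

theorem Om_pos {n : ℕ} {a : Fin n → R → k} {F : Fin (n + 2) ⥤ Susp (GLm κ R)} (h : NM F) :
    Om a F = ∑ v, ∏ j, a j ((edge F j).val v v) := if_pos h

theorem Om_neg {n : ℕ} {a : Fin n → R → k} {F : Fin (n + 2) ⥤ Susp (GLm κ R)} (h : ¬ NM F) :
    Om a F = 0 := if_neg h

/-- the simplex goes from a pole to the middle, and all its matrices are diagonal -/
def DgS {n : ℕ} (F : Fin (n + 2) ⥤ Susp (GLm κ R)) : Prop :=
  F.obj 0 ≠ .mid ∧ F.obj (Fin.last _) = .mid ∧ ∀ i j h, ∃ χ, Dgm (vl F i j h) χ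

theorem Dgm.entry {g : GLm κ R} {χ : κ → Rˣ} (h : Dgm g χ) (v : κ) :
    (g : Matrix κ κ R) v v = χ v := by
  rw [h, Matrix.diagonal_apply_eq]

theorem Dgm.one : Dgm (1 : GLm κ R) 1 := by
  unfold Dgm
  simp

variable [Algebra R k]

/-- the logarithmic derivative of a ring element -/
noncomputable def dli (D : Derivation ℤ R k) (x : R) : k := algebraMap R k (Ring.inverse x) * D x

theorem dli_unit (D : Derivation ℤ R k) (u : Rˣ) : dli D u = dlo D u := by
  rw [dli, Ring.inverse_unit, dlo]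

variable {m : ℕ} (e : κ ≃ Fin m) {D : ℕ → Derivation ℤ R k} {d : QData D}

theorem cub_DgS (hd : ∀ l, Tw (crd e (topM R m)) 1 (d.conn (topM R m) l)) {n : ℕ}
    (F : Fin (n + 2) ⥤ Susp (GLm κ R)) (hF : DgS F) :
    cub d (F ⋙ gFun R e) (Fin.zero_le (Fin.last _)) n (Finset.Ioo 0 (Fin.last _)) =
      eps n * Om (fun j : Fin n => dli (D j.rev)) F := by
  classical
  obtain ⟨h0, hl, hχ⟩ := hF
  have hcard : (Finset.Ioo (0 : Fin (n + 2)) (Fin.last _)).card = n := by
    rw [Fin.card_Ioo]; rfl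
  by_cases hS : F.obj 0 = .south
  · rw [cub_south e F _ hS hl, Om, if_neg, mul_zero]
    intro h
    exact absurd (hS.symm.trans h.1) nofun
  have hN : F.obj 0 = .north := by
    revert h0 hS
    generalize F.obj 0 = x
    intro h0 hS
    cases x
    · exact absurd rfl hS
    · rfl
    · exact absurd rfl h0
  choose χ hχ using hχ
  rw [cub_north e F hd _ hN hl (fun j => χ j _ (Fin.le_last j)) (fun j hj _ => hχ j _ hj), Om]
  split_ifs with hM
  · rw [Finset.mul_sum]
    refine Finset.sum_congr rfl fun v _ => ?_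
    let f : Fin n → Fin (n + 2) := fun i => i.rev.succ.castSucc
    have hf : (List.ofFn f).toFinset = Finset.Ioo 0 (Fin.last _) := by
      ext j
      rw [List.mem_toFinset, List.mem_ofFn, Finset.mem_Ioo]
      refine ⟨?_, fun h => ?_⟩
      · rintro ⟨i, rfl⟩
        exact ⟨Fin.castSucc_pos (Fin.succ_pos _), Fin.castSucc_lt_last _⟩
      · have h1 : 0 < j.1 := h.1
        have h2 : j.1 < n + 1 := h.2
        refine ⟨Fin.rev ⟨j.1 - 1, by omega⟩, Fin.ext ?_⟩
        simp only [f, Fin.rev_rev, Fin.val_castSucc, Fin.val_succ]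
        omega
    have key := ev_cube_min (fun l t => dlo (D l) (chT (fun j => χ j _ (Fin.le_last j)) t v))
      (fun j => 0 < j ∧ j < Fin.last (n + 1) ∧ F.obj j = .mid) (List.ofFn f)
      (List.pairwise_ofFn.2 fun i j hij => by
        have h1 : i.1 < j.1 := hij
        have h2 := j.2
        change (j.rev.succ.castSucc : Fin (n + 2)).1 < (i.rev.succ.castSucc : Fin (n + 2)).1
        simp only [Fin.val_castSucc, Fin.val_succ, Fin.val_rev]
        omega)
      (fun j hj => by
        obtain ⟨i, rfl⟩ := List.mem_ofFn.1 hj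
        exact ⟨Fin.castSucc_pos (Fin.succ_pos _), Fin.castSucc_lt_last _, hM.2 i.rev.castSucc⟩)
      ∅ 0 (fun _ _ a ha => absurd ha (Finset.notMem_empty a))
    rw [List.length_ofFn, hf, GG_ofFn] at key
    refine key.trans (congrArg _ ?_)
    rw [← Equiv.prod_comp Fin.revPerm]
    refine Finset.prod_congr rfl fun j _ => ?_
    have h1 : chT (fun j => χ j _ (Fin.le_last j)) ((Fin.cons
        (Finset.filter (fun j => 0 < j ∧ j < Fin.last (n + 1) ∧ F.obj j = .mid) ∅).min
        fun i => (f i : WithTop (Fin (n + 2))) : Fin (n + 1) → WithTop (Fin (n + 2)))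
        (Fin.revPerm j).castSucc) v = χ j.succ.succ _ (Fin.le_last _) v := by
      obtain ⟨i, rfl⟩ := Fin.rev_surjective j
      rw [Fin.revPerm_apply, Fin.rev_rev]
      cases n with
      | zero => exact i.elim0
      | succ n =>
        refine Fin.cases ?_ (fun i => ?_) i
        · apply Units.ext
          have h2 := (hχ (Fin.last _) _ le_rfl).entry v
          rw [vl_self] at h2
          exact (Dgm.one.entry v).symm.trans h2
        · have h2 : f i.castSucc = i.succ.rev.succ.succ := Fin.ext (by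
            have := i.2
            simp only [f, Fin.val_castSucc, Fin.val_succ, Fin.val_rev]
            omega)
          change χ (f i.castSucc) _ (Fin.le_last _) v = _
          simp only [h2]
    have h3 : chT (fun j => χ j _ (Fin.le_last j)) (f (Fin.revPerm j)) v =
        χ j.succ.castSucc j.succ.succ (Fin.castSucc_lt_succ).le v *
          χ j.succ.succ _ (Fin.le_last _) v := by
      have h4 : f (Fin.revPerm j) = j.succ.castSucc := by
        simp only [f, Fin.revPerm_apply, Fin.rev_rev]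
      rw [h4]
      apply Units.ext
      have h5 := ((hχ j.succ.castSucc j.succ.succ (Fin.castSucc_lt_succ).le).mul
        (hχ j.succ.succ _ (Fin.le_last _))).entry v
      rw [vl_mul F (i := j.succ.castSucc) _ _ (hM.2 j.castSucc)] at h5
      exact ((hχ _ _ _).entry v).symm.trans h5
    rw [h1, h3, dlo_mul, add_sub_cancel_right, edge, (hχ _ _ _).entry, dli_unit, zero_add]
    rfl
  · rw [mul_zero]
    refine Finset.sum_eq_zero fun v _ => ?_
    have h1 : ∃ j : Fin (n + 1), F.obj j.succ ≠ .mid := by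
      by_contra h
      exact hM ⟨hN, fun j => by_contra fun hj => h ⟨j, hj⟩⟩
    obtain ⟨j, hj⟩ := h1
    refine ev_cube_min_zero (fun l t => dlo (D l) (chT (fun j => χ j _ (Fin.le_last j)) t v))
      (fun j => 0 < j ∧ j < Fin.last (n + 1) ∧ F.obj j = .mid) (j := j.succ) (fun h => hj h.2.2)
      hcard (Finset.mem_Ioo.2 ⟨Fin.succ_pos _, lt_of_le_of_ne (Fin.le_last _) fun h => hj ?_⟩) ∅ 0
    rw [h]
    exact hl

end Om

section Ker

open Simplicial Opposite
open Vale.Agent.P178.H873 (St)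
open Vale.Agent.P178.H676 (Sig sS sN)
open Vale.Agent.P178.H911 (I symb Dg ev3)
open Vale.Agent.P178.H924 (Re SCh sbd spush sev can rmap)
open Vale.Agent.P178.H51 (spFun spData tw)

variable {A B : Type} [CommRing A] [CommRing B]

/-- the base point -/
noncomputable def bp (A : Type) [CommRing A] : Re (nerve (QK.QP A)) := QK.BQ.base A

theorem rmap_bp (f : A →+* B) : rmap (nerveMap (QK.baseChange f)) (bp A) = bp B :=
  QK.BQ.map_base f

/-- the simplicial chain `c` represents the Hurewicz image of an element in the kernel -/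
def KerC (f : A →+* B) (m : ℕ) (c : SCh (nerve (QK.QP A)) (m + 2)) : Prop :=
  ∃ α : HomotopyGroup (Fin (m + 2)) (Re (nerve (QK.QP A))) (bp A),
    H551.Rep α (can _ _ c) ∧ H301.piMap (rmap (nerveMap (QK.baseChange f))) (rmap_bp f) α = 1

variable {κ : Type} [Fintype κ] [DecidableEq κ] {r : ℕ}

/-- the map from the suspension of the general linear group -/
noncomputable def gMap (A : Type) [CommRing A] (e : κ ≃ Fin r) :
    nerve (Susp (GLm κ A)) ⟶ nerve (QK.QP A) := nerveMap (gFun A e ⋙ QK.toGraph A)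

/-- the chains of diagonal simplices -/
def DgC (κ A : Type) [Fintype κ] [DecidableEq κ] [CommRing A] (n : ℕ) :
    Submodule ℤ (SCh (nerve (Susp (GLm κ A))) (n + 1)) := Finsupp.supported ℤ ℤ {F | DgS F}

/-- the trace form on chains -/
noncomputable def OmC {k : Type w} [CommRing k] {n : ℕ} (a : Fin n → A → k) :
    SCh (nerve (Susp (GLm κ A))) (n + 1) →ₗ[ℤ] k :=
  sev fun F : (nerve (Susp (GLm κ A))) _⦋n + 1⦌ => Om a F

theorem OmC_single {k : Type w} [CommRing k] {n : ℕ} (a : Fin n → A → k)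
    (F : (nerve (Susp (GLm κ A))) _⦋n + 1⦌) (c : ℤ) : OmC a (Finsupp.single F c) = c • Om a F :=
  H924.sev_single _ F c

/-- **Detection.** -/
theorem not_injective_of_kerC (f : A →+* B) (e : κ ≃ Fin r) {m : ℕ}
    {z : SCh (nerve (Susp (GLm κ A))) (m + 2)} (hK : KerC f m (spush (gMap A e) _ z))
    (hz : sbd _ (m + 1) z = 0) (hD : z ∈ DgC κ A (m + 1)) {k : Type w} [CommRing k] [Algebra A k]
    (D : ℕ → Derivation ℤ A k)
    (hne : OmC (fun j : Fin (m + 1) => dli (D j.rev)) z ≠ 0) :
    ¬ Function.Injective (QK.K.map (m + 1) f) := by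
  intro hi
  obtain ⟨α, hα, h1⟩ := hK
  have h2 : α = 1 := hi (h1.trans (map_one (QK.K.map (m + 1) f)).symm)
  rw [h2] at hα
  obtain ⟨b, hb⟩ := hα.bounds
  obtain ⟨d, hd⟩ := exists_qdata (R := A) (k := k) e D
  have h3 := H924.detect (H51.tw_cocycle (qc d (m + 1)) (qc_cocycle d (m + 1)))
    (x := spush (gMap A e) _ z) (by
      show sbd _ (m + 1) (spush (gMap A e) (m + 2) z) = 0
      rw [← H924.spush_sbd, hz, map_zero]) hb.symm
  have h4 : sev (qc d (m + 1)) (spush (nerveMap (gFun A e)) _ z) = 0 :=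
    (H51.sev_tw (qc d (m + 1)) (gFun A e) z).symm.trans h3
  have h5 : sev (qc d (m + 1)) (spush (nerveMap (gFun A e)) _ z) =
      eps (m + 1) * OmC (fun j : Fin (m + 1) => dli (D j.rev)) z := by
    refine Submodule.span_induction (p := fun z _ => sev (qc d (m + 1))
      (spush (nerveMap (gFun A e)) _ z) = eps (m + 1) *
      OmC (fun j : Fin (m + 1) => dli (D j.rev)) z) ?_ ?_ ?_ ?_
      ((Finsupp.supported_eq_span_single ℤ _).le hD)
    · rintro _ ⟨F, hF, rfl⟩
      rw [H924.spush_single, H924.sev_single, OmC_single, one_smul, one_smul]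
      exact cub_DgS e hd F hF
    · simp
    · intro x y _ _ hx hy
      rw [map_add, map_add, hx, hy, map_add, mul_add]
    · intro a x _ hx
      rw [map_smul, map_smul, hx, map_smul, mul_smul_comm]
  apply hne
  have h6 := congrArg (Int.cast : ℤ → k) (eps_sq (m + 1))
  rw [Int.cast_mul, Int.cast_one] at h6
  rw [h4] at h5
  rw [← one_mul (OmC _ z), ← h6, mul_assoc, ← h5, mul_zero]

/-- the suspension of the symbol chain, in the general linear group -/
noncomputable def zS (a b c : Aˣ) : SCh (nerve (Susp (GLm I A))) 4 :=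
  spush (nerveMap (Susp.map (St.toGL : St I A →* GLm I A))) 4 (Sig _ (symb a b c))

theorem sbd_zS (a b c : Aˣ) : sbd _ 3 (zS a b c) = 0 := by
  rw [zS, ← H924.spush_sbd, H676.sbd_Sig _ (H911.bar3_symb a b c), map_zero]

theorem spFun_eq (e : I ≃ Fin r) :
    Susp.map (St.toGL : St I A →* GLm I A) ⋙ gFun A e = spFun A e :=
  Susp.Data.map_comp_functor (gData A e) _

theorem spush_comp {X Y Z : SSet.{0}} (φ : X ⟶ Y) (ψ : Y ⟶ Z) (n : ℕ) (c : SCh X n) :
    spush ψ n (spush φ n c) = spush (φ ≫ ψ) n c := by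
  induction c using Finsupp.induction_linear with
  | zero => simp
  | add a b ha hb => simp only [map_add, ha, hb]
  | single x a => rw [H924.spush_single, H924.spush_single, H924.spush_single]; rfl

/-- **The class of the symbol.** -/
theorem kerC_zS (f : A →+* B) (e : I ≃ Fin r) (a b c : Aˣ)
    (hb : ∃ w, H911.bar4 (St I B) w = symb (Units.map (f : A →* B) a) (Units.map (f : A →* B) b)
      (Units.map (f : A →* B) c)) : KerC f 2 (spush (gMap A e) 4 (zS a b c)) := by
  let φ : nerve (Susp (St I A)) ⟶ nerve (QK.QP A) := nerveMap (spFun A e ⋙ QK.toGraph A)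
  let φ' : nerve (Susp (St I B)) ⟶ nerve (QK.QP B) := nerveMap (spFun B e ⋙ QK.toGraph B)
  let g : nerve (Susp (St I A)) ⟶ nerve (Susp (St I B)) := nerveMap (Susp.map (St.map f))
  have hsq : φ ≫ nerveMap (QK.baseChange f) = g ≫ φ' := by
    change nerveMap ((spFun A e ⋙ QK.toGraph A) ⋙ QK.baseChange _) =
      nerveMap (Susp.map (St.map _) ⋙ spFun B e ⋙ QK.toGraph _)
    rw [Functor.assoc, QK.toGraph_baseChange, ← Functor.assoc, H51.spFun_natural, Functor.assoc]
  have hz : spush (gMap A e) 4 (zS a b c) = spush φ 4 (Sig _ (symb a b c)) := by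
    rw [zS, spush_comp]
    change spush (nerveMap (Susp.map _ ⋙ gFun A e ⋙ QK.toGraph A)) 4 _ = _
    rw [← Functor.assoc, spFun_eq]
  let s : Re (nerve (Susp (St I A))) := H847.vtx _ (ComposableArrows.mk₀ Susp.south)
  have hs : rmap φ s = bp A := by
    refine (H847.map_vtx φ _).trans (congrArg (H847.vtx (nerve (QK.QP A))) ?_)
    exact nerveMap_app_mk₀ _ _
  have hsq' : (rmap (nerveMap (QK.baseChange f))).comp (rmap φ) = (rmap φ').comp (rmap g) := by
    rw [← H924.rmap_comp, ← H924.rmap_comp, hsq]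
  have hφ' : rmap φ' (rmap g s) = bp B :=
    (DFunLike.congr_fun hsq' s).symm.trans
      ((congrArg (rmap (nerveMap (QK.baseChange f))) hs).trans (rmap_bp f))
  obtain ⟨α, hα⟩ := H551.exists_rep_of_cyc (m := 2) (H956.lft_of_simplicial s
    (H51.susp_acyclic A)) (can _ 4 (Sig _ (symb a b c)))
    (by rw [H924.bd_can, H676.sbd_Sig _ (H911.bar3_symb a b c), map_zero])
  have h1 : H301.piMap (rmap g) rfl α = 1 := by
    refine (hα.map (rmap g) rfl).eq_one (H956.lft_of_simplicial _ (H51.susp_acyclic B)) ?_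
    obtain ⟨w, hw⟩ := hb
    obtain ⟨y, hy⟩ := H676.Sig_bar4 w
    refine ⟨can _ 5 y, ?_⟩
    rw [H924.push_can, H924.bd_can, hy, hw, ← H911.mapC3_symb, H676.spush_Sig]
    rfl
  refine ⟨H301.piMap (rmap φ) hs α, ?_, ?_⟩
  · rw [hz, ← H924.push_can]
    exact hα.map (rmap φ) hs
  · rw [← H301.piMap_comp (rmap φ) hs _ (rmap_bp f),
      H301.piMap_congr hsq' _ (by rw [ContinuousMap.comp_apply, hφ']) α,
      H301.piMap_comp (rmap g) rfl _ hφ', h1, H301.piMap_one]

theorem DgS_mk (p : Bool) {g h l : GLm κ A} {χ₁ χ₂ χ₃ : κ → Aˣ} (h1 : Dgm g χ₁) (h2 : Dgm h χ₂)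
    (h3 : Dgm l χ₃) : DgS (n := 3) (ComposableArrows.mk₄ (Susp.toP _ p) (Susp.el g) (Susp.el h)
      (Susp.el l)) := by
  refine ⟨by cases p <;> nofun, rfl, fun i j hij => ?_⟩
  have h0 : ∀ j hj, ∃ χ, Dgm (vl (ComposableArrows.mk₄ (Susp.toP _ p) (Susp.el g) (Susp.el h)
      (Susp.el l)) 0 j hj) χ := fun j hj => ⟨1, by
    have h5 : vl (ComposableArrows.mk₄ (Susp.toP _ p) (Susp.el g) (Susp.el h) (Susp.el l)) 0 j hj
      = 1 := Susp.val_pole (p := p) ((ComposableArrows.mk₄ (Susp.toP _ p) (Susp.el g) (Susp.el h)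
        (Susp.el l)).map (homOfLE hj))
    rw [h5]; exact Dgm.one⟩
  have h4 : ∀ j hj, ∃ χ, Dgm (vl (ComposableArrows.mk₄ (Susp.toP _ p) (Susp.el g) (Susp.el h)
      (Susp.el l)) j j hj) χ := fun j hj => ⟨1, by rw [vl_self]; exact Dgm.one⟩
  fin_cases i <;> fin_cases j <;>
    first | (exact absurd hij (by decide)) | (exact h0 _ _) | (exact h4 _ _) | (exact ⟨_, h1⟩) |
      (exact ⟨_, h2⟩) | (exact ⟨_, h3⟩) | (exact ⟨_, h1.mul h2⟩) | (exact ⟨_, h2.mul h3⟩) |
      (exact ⟨_, h1.mul (h2.mul h3)⟩)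

theorem Sig_mem {g h l : St I A} {χ₁ χ₂ χ₃ : I → Aˣ} (h1 : Dg g χ₁) (h2 : Dg h χ₂)
    (h3 : Dg l χ₃) : spush (nerveMap (Susp.map (St.toGL : St I A →* GLm I A))) 4
      (Sig _ (Finsupp.single (g, h, l) 1)) ∈ DgC I A 3 := by
  rw [H676.spush_Sig, H676.bpush_single, H676.Sig_single]
  exact Submodule.sub_mem _ (Finsupp.single_mem_supported ℤ _ (DgS_mk false h1 h2 h3))
    (Finsupp.single_mem_supported ℤ _ (DgS_mk true h1 h2 h3))

theorem zS_mem (a b c : Aˣ) : zS a b c ∈ DgC I A 3 := by
  have ha := H911.dg_ahat a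
  have hb := H911.dg_bhat b
  have hc := H911.dg_chat c
  rw [zS, symb, H911.TT]
  simp only [map_add, map_sub]
  exact Submodule.sub_mem _ (Submodule.add_mem _ (Submodule.sub_mem _ (Submodule.add_mem _
    (Submodule.sub_mem _ (Sig_mem ha hb hc) (Sig_mem hb ha hc)) (Sig_mem hb hc ha))
    (Sig_mem hc hb ha)) (Sig_mem hc ha hb)) (Sig_mem ha hc hb)

/-- the trace form on the symbol -/
theorem Om_zS {k : Type w} [CommRing k] (α : Fin 3 → A → k)
    (hα : ∀ l (u v : Aˣ), α l (u * v : Aˣ) = α l u + α l v) (a b c : Aˣ) :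
    OmC α (zS a b c) =
      - Matrix.det (Matrix.of fun i j => α j (![a, b, c] i : Aˣ)) := by
  have key : ∀ t : St I A × St I A × St I A →₀ ℤ,
      OmC α (spush (nerveMap (Susp.map (St.toGL : St I A →* GLm I A))) 4 (Sig _ t)) =
        ev3 (fun g => -Om α (sN (St.toGL g.1) (St.toGL g.2.1) (St.toGL g.2.2) :
          Fin 5 ⥤ Susp (GLm I A))) t := by
    intro t
    induction t using Finsupp.induction_linear with
    | zero => simp
    | add a b ha hb => simp only [map_add, ha, hb]
    | single g n =>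
      obtain ⟨g, h, l⟩ := g
      rw [H911.ev3_single, smul_neg, H676.spush_Sig, H676.bpush_single, H676.Sig_single, map_sub,
        OmC_single, OmC_single]
      have h0 : Om α (sS (St.toGL g) (St.toGL h) (St.toGL l) : Fin 5 ⥤ Susp (GLm I A)) = 0 :=
        Om_neg fun h1 => absurd (show (Susp.south : Susp (GLm I A)) = .north from h1.1) nofun
      exact (congrArg (fun x => n • x - _) h0).trans (by rw [smul_zero, zero_sub])
  rw [zS, key, H911.ev3_symb _ (-1) (fun l u => α l u) hα, neg_one_mul]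
  · refine congrArg (fun M => -Matrix.det M) ?_
    ext i j
    fin_cases i <;> fin_cases j <;> rfl
  · intro g h l χ₁ χ₂ χ₃ h1 h2 h3
    have hN : NM (n := 3) (sN (St.toGL g) (St.toGL h) (St.toGL l)) :=
      ⟨rfl, fun j => by fin_cases j <;> rfl⟩
    rw [neg_one_mul, Om_pos hN]
    refine congrArg Neg.neg (Finset.sum_congr rfl fun v _ => ?_)
    rw [Fin.prod_univ_three, ← Dgm.entry (g := St.toGL g) h1, ← Dgm.entry (g := St.toGL h) h2,
      ← Dgm.entry (g := St.toGL l) h3]
    rfl

end Ker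

section Good

open Vale.Agent.P178.H911 (I)
open Vale.Agent.P178.H924 (SCh sbd spush)

variable {A B : Type} [CommRing A] [CommRing B]

/-- there is an element of the kernel of `K_{m+1}(A) → K_{m+1}(B)` whose logarithmic differential
is a unit multiple of `d a_0 ∧ ⋯ ∧ d a_m` -/
def Good (f : A →+* B) (k : Type w) [CommRing k] [Algebra A k] (m : ℕ) (a : Fin (m + 1) → A) :
    Prop :=
  ∃ (z : SCh (nerve (Susp (GLm I A))) (m + 2)) (ε : Aˣ),
    KerC f m (spush (gMap A (Fintype.equivFin I)) _ z) ∧ sbd _ (m + 1) z = 0 ∧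
      z ∈ DgC I A (m + 1) ∧ ∀ D : Fin (m + 1) → Derivation ℤ A k,
        OmC (fun j => dli (D j)) z = algebraMap A k ε * Matrix.det (Matrix.of fun i j => D j (a i))

variable {k : Type w} [CommRing k] [Algebra A k]

theorem Good.not_injective {f : A →+* B} {m : ℕ} {a : Fin (m + 1) → A} (h : Good f k m a)
    (D : Fin (m + 1) → Derivation ℤ A k) (hD : Matrix.det (Matrix.of fun i j => D j (a i)) ≠ 0) :
    ¬ Function.Injective (QK.K.map (m + 1) f) := by
  obtain ⟨z, ε, h1, h2, h3, h4⟩ := h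
  refine not_injective_of_kerC f _ h1 h2 h3
    (fun l => if h : l < m + 1 then D (Fin.rev ⟨l, h⟩) else 0) fun h5 => hD ?_
  have h6 : (fun j : Fin (m + 1) => dli (if h : (j.rev : ℕ) < m + 1 then D (Fin.rev ⟨j.rev, h⟩)
      else 0)) = fun j => dli (D j) := funext fun j => by
    rw [dif_pos j.rev.2, Fin.eta, Fin.rev_rev]
  rw [h6, h4] at h5
  rw [← one_mul (Matrix.det _), ← unit_mul_inv k ε, mul_assoc, h5, mul_zero]

theorem dlo_inv (D : Derivation ℤ A k) (u : Aˣ) : dlo D u⁻¹ = -dlo D u := by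
  have := dlo_mul D u u⁻¹
  rw [mul_inv_cancel, dlo_one] at this
  exact (neg_eq_of_add_eq_zero_right this.symm).symm

theorem dlo_pow (D : Derivation ℤ A k) (u : Aˣ) (n : ℕ) : dlo D (u ^ n) = n * dlo D u := by
  induction n with
  | zero => rw [pow_zero, dlo_one, Nat.cast_zero, zero_mul]
  | succ n ih => rw [pow_succ, dlo_mul, ih, Nat.cast_succ, add_mul, one_mul]

theorem dlo_neg (D : Derivation ℤ A k) (u : Aˣ) : dlo D (-u) = dlo D u := by
  simp [dlo]

theorem mul_dlo (D : Derivation ℤ A k) (u : Aˣ) : algebraMap A k u * dlo D u = D u := by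
  rw [dlo, ← mul_assoc, mul_comm (algebraMap A k u), unit_mul_inv, one_mul]

theorem der_geom (D : Derivation ℤ A k) (j : Aˣ) (n : ℕ) :
    D (∑ i ∈ Finset.range n, (j : A) ^ i) =
      (∑ i ∈ Finset.range n, (i : k) * algebraMap A k j ^ i) * dlo D j := by
  rw [map_sum, Finset.sum_mul]
  refine Finset.sum_congr rfl fun i _ => ?_
  rw [← Units.val_pow_eq_pow_val, ← mul_dlo, dlo_pow, Units.val_pow_eq_pow_val, map_pow]
  ring

theorem geom_der (J : k) (n : ℕ) : (1 - J) * ∑ i ∈ Finset.range n, (i : k) * J ^ i =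
    J * ∑ i ∈ Finset.range n, J ^ i - n * J ^ n := by
  induction n with
  | zero => simp
  | succ n ih =>
    rw [Finset.sum_range_succ, Finset.sum_range_succ, mul_add, ih]
    push_cast
    ring

/-- **The element of `K_3`.** -/
theorem good_three (f : A →+* B) (x c : A) (j t s w : Aˣ) (n : ℕ)
    (hr : x * c = ∑ i ∈ Finset.range (n + 1), (j : A) ^ i) (ht : (t : A) = 1 + x * (1 - j))
    (hs : (s : A) = x + ∑ i ∈ Finset.range n, (j : A) ^ i) (hw : (w : A) = 1 + c)
    (hx : IsUnit (f x)) (hy : IsUnit (f (1 - j))) : Good f k 2 ![x, c, j] := by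
  have g1 : ∀ n, (1 - (j : A)) * ∑ i ∈ Finset.range n, (j : A) ^ i = 1 - j ^ n := fun n =>
    mul_neg_geom_sum _ _
  refine ⟨zS (s * t⁻¹) (j ^ n * t⁻¹) (-(w * t⁻¹)), w⁻¹ * t⁻¹, kerC_zS f _ _ _ _ ?_, sbd_zS _ _ _,
    zS_mem _ _ _, fun D => ?_⟩
  · have h0 := congrArg f t.mul_inv
    refine H911.exists_bar4_symb (n := n) _ _ _ hx.unit hy.unit (Units.map (f : A →* B) j)
      (Units.map (f : A →* B) t) (Units.map (f : A →* B) (w * t⁻¹)) ?_ ?_ ?_ ?_ ?_ ?_
    · simp
    · have h1 := congrArg f (g1 n)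
      have h2 := congrArg f hs
      have h3 := congrArg f ht
      simp only [IsUnit.unit_spec, Units.coe_map, MonoidHom.coe_coe, Units.val_mul, map_mul,
        map_add, map_one, map_sub, map_pow, Units.val_pow_eq_pow_val] at h0 h1 h2 h3 ⊢
      linear_combination h0 + f (t⁻¹ : Aˣ) * ((1 - f j) * h2 + h1 - h3)
    · rw [← map_mul, inv_mul_cancel_right, map_pow]
    · have h1 := congrArg f (g1 (n + 1))
      have h2 := congrArg f hw
      have h3 := congrArg f ht
      have h4 := congrArg f hr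
      simp only [IsUnit.unit_spec, Units.coe_map, MonoidHom.coe_coe, Units.val_mul, map_mul,
        map_add, map_one, map_sub, map_pow, Units.val_pow_eq_pow_val, ← map_inv] at h0 h1 h2 h3 h4 ⊢
      linear_combination h0 + f (t⁻¹ : Aˣ) * (f x * (1 - f j) * h2 + (1 - f j) * h4 + h1 - h3)
    · have h3 := congrArg f ht
      simpa using h3
    · ext
      simp
  · rw [Om_zS _ (fun l u v => by rw [dli_unit, dli_unit, dli_unit, dlo_mul])]
    have e1 := unit_mul_inv k s
    have e2 := unit_mul_inv k t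
    have e3 := congrArg (algebraMap A k) (g1 n)
    have e4 := geom_der (algebraMap A k j) n
    have d1 : ∀ l, D l (t : A) = (1 - algebraMap A k j) * D l x -
        algebraMap A k x * (algebraMap A k j * dlo (D l) j) := fun l => by
      rw [ht, mul_dlo, map_add, Derivation.leibniz, map_sub, Derivation.map_one_eq_zero,
        Algebra.smul_def, Algebra.smul_def, map_sub, map_one]
      ring
    have d2 : ∀ l, D l (w : A) = D l c := fun l => by
      rw [hw, map_add, Derivation.map_one_eq_zero, zero_add]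
    have d3 : ∀ l, D l (s : A) = D l x +
        (∑ i ∈ Finset.range n, (i : k) * algebraMap A k j ^ i) * dlo (D l) j := fun l => by
      rw [hs, map_add, der_geom]
    rw [hs] at e1
    rw [ht] at e2
    simp only [map_add, map_mul, map_sub, map_one, map_sum, map_pow] at e1 e2 e3
    rw [Matrix.det_fin_three, Matrix.det_fin_three]
    simp only [Matrix.of_apply, Matrix.cons_val_zero, Matrix.cons_val_one, Matrix.cons_val_two,
      Matrix.head_cons, Matrix.tail_cons, dli_unit, dlo_neg, dlo_mul, dlo_inv, dlo_pow,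
      ← mul_dlo _ j, Units.val_mul, map_mul]
    simp only [dlo.eq_1 _ s, dlo.eq_1 _ t, dlo.eq_1 _ w, d1, d2, d3]
    generalize algebraMap A k ((s⁻¹ : Aˣ) : A) = si at *
    generalize algebraMap A k ((t⁻¹ : Aˣ) : A) = ti at *
    generalize algebraMap A k ((w⁻¹ : Aˣ) : A) = wi at *
    generalize ∑ i ∈ Finset.range n, (i : k) * algebraMap A k j ^ i = T at *
    generalize ∑ i ∈ Finset.range n, algebraMap A k j ^ i = S at *
    generalize algebraMap A k j ^ n = Jn at *
    generalize algebraMap A k j = J at *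
    generalize algebraMap A k x = X at *
    have hq : (si - (1 - J) * ti) * (n + X * J * ti) + (1 - J) * ti * (si * T + X * J * ti) =
        ti * J := by
      linear_combination (-si * n) * e2 + ((1 - J) * ti * n + ti * J) * e1 +
        si * ti * (-(n : k) * e3 + e4)
    linear_combination (wi * (D 0 x * D 1 c * dlo (D 2) j - D 0 x * D 2 c * dlo (D 1) j -
      D 1 x * D 0 c * dlo (D 2) j + D 1 x * D 2 c * dlo (D 0) j + D 2 x * D 0 c * dlo (D 1) j -
      D 2 x * D 1 c * dlo (D 0) j)) * hq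

end Good

end Vale.Agent.N178
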